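import Mathlib

/-!
# Fourier analysis on the discrete cube `ι → ℤˣ` (signs), for problem P047.
-/

namespace Vale.Agent.P047

open Finset

noncomputable section

/-- The real number `±1` attached to a sign `u : ℤˣ`. -/
def rv (u : ℤˣ) : ℝ := ((u : ℤ) : ℝ)

@[simp] lemma rv_one : rv 1 = 1 := by simp [rv]

@[simp] lemma rv_neg_one : rv (-1) = -1 := by simp [rv]

lemma rv_mul (a b : ℤˣ) : rv (a * b) = rv a * rv b := by simp [rv]

lemma rv_neg (a : ℤˣ) : rv (-a) = - rv a := by simp [rv]

lemma rv_mul_self (a : ℤˣ) : rv a * rv a = 1 := by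
  rcases Int.units_eq_one_or a with h | h <;> simp [h]

lemma rv_abs (a : ℤˣ) : |rv a| = 1 := by
  rcases Int.units_eq_one_or a with h | h <;> simp [h]

lemma sum_units (φ : ℤˣ → ℝ) : ∑ u, φ u = φ 1 + φ (-1) := by
  have : (Finset.univ : Finset ℤˣ) = {1, -1} := by decide
  rw [this, Finset.sum_pair (by decide)]

variable {ι κ : Type*} [Fintype ι] [DecidableEq ι] [Fintype κ] [DecidableEq κ]

/-- The character `χ_S(x) = ∏_{i ∈ S} x_i`. -/
def chi (S : Finset ι) (x : ι → ℤˣ) : ℝ := ∏ i ∈ S, rv (x i)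

/-- Expectation of a real function under the uniform measure on the cube `{-1,1}^ι`. -/
def expect (F : (ι → ℤˣ) → ℝ) : ℝ := (∑ x, F x) / 2 ^ Fintype.card ι

/-- Fourier coefficient `\hat f(S) = E[f(X) ∏_{i∈S} X_i]` of a Boolean function. -/
def fourier (f : (ι → ℤˣ) → ℤˣ) (S : Finset ι) : ℝ := expect (fun x => rv (f x) * chi S x)

/-- The (Fourier / multilinear) degree: the largest `|S|` with `\hat f(S) ≠ 0` (and `0` if none). -/
def deg (f : (ι → ℤˣ) → ℤˣ) : ℕ := (univ.filter (fun S => fourier f S ≠ 0)).sup Finset.card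

/-- The sum of the level-one Fourier coefficients `∑_i \hat f({i})`. -/
def levelOne (f : (ι → ℤˣ) → ℤˣ) : ℝ := ∑ i, fourier f {i}

lemma chi_eq_prod_ite (S : Finset ι) (x : ι → ℤˣ) :
    chi S x = ∏ i, (if i ∈ S then rv (x i) else 1) := by
  unfold chi
  rw [Finset.prod_ite_mem]
  simp

/-- product formula over coordinates -/
lemma expect_prod (ψ : ι → ℤˣ → ℝ) :
    expect (fun x : ι → ℤˣ => ∏ i, ψ i (x i)) = ∏ i, ((ψ i 1 + ψ i (-1)) / 2) := by
  unfold expect
  have h := Finset.prod_univ_sum (fun _ : ι => (Finset.univ : Finset ℤˣ)) ψ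
  rw [Fintype.piFinset_univ] at h
  rw [← h, Finset.prod_div_distrib]
  simp

lemma expect_chi (S : Finset ι) : expect (chi S) = if S = ∅ then 1 else 0 := by
  have : (chi S : (ι → ℤˣ) → ℝ) = fun x => ∏ i, (fun i u => if i ∈ S then rv u else 1) i (x i) := by
    funext x; exact chi_eq_prod_ite S x
  rw [this, expect_prod (fun i u => if i ∈ S then rv u else 1)]
  split_ifs with h
  · subst h; simp
  · obtain ⟨i, hi⟩ := Finset.nonempty_iff_ne_empty.mpr h
    apply Finset.prod_eq_zero (Finset.mem_univ i)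
    simp [hi]

lemma expect_add (F G : (ι → ℤˣ) → ℝ) : expect (fun x => F x + G x) = expect F + expect G := by
  unfold expect; rw [Finset.sum_add_distrib, add_div]

lemma expect_const_mul (c : ℝ) (F : (ι → ℤˣ) → ℝ) : expect (fun x => c * F x) = c * expect F := by
  unfold expect; rw [← Finset.mul_sum, mul_div_assoc]

lemma expect_sum {α : Type*} (s : Finset α) (F : α → (ι → ℤˣ) → ℝ) :
    expect (fun x => ∑ a ∈ s, F a x) = ∑ a ∈ s, expect (F a) := by
  unfold expect; rw [Finset.sum_comm, Finset.sum_div]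

lemma chi_mul_chi (S T : Finset ι) (x : ι → ℤˣ) : chi S x * chi T x = chi (symmDiff S T) x := by
  rw [chi_eq_prod_ite, chi_eq_prod_ite, chi_eq_prod_ite, ← Finset.prod_mul_distrib]
  apply Finset.prod_congr rfl
  intro i _
  by_cases h1 : i ∈ S <;> by_cases h2 : i ∈ T <;> simp [Finset.mem_symmDiff, h1, h2, rv_mul_self]

lemma expect_chi_mul_chi (S T : Finset ι) :
    expect (fun x => chi S x * chi T x) = if S = T then 1 else 0 := by
  have : (fun x : ι → ℤˣ => chi S x * chi T x) = chi (symmDiff S T) := by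
    funext x; exact chi_mul_chi S T x
  rw [this, expect_chi]
  simp

omit [DecidableEq ι] in
/-- `∑_S χ_S(x) χ_S(y) = 2^n [x = y]`. -/
lemma sum_chi_chi (x y : ι → ℤˣ) :
    ∑ S : Finset ι, chi S x * chi S y = if x = y then 2 ^ Fintype.card ι else 0 := by
  have h1 : ∀ S : Finset ι, chi S x * chi S y = ∏ i ∈ S, (rv (x i) * rv (y i)) := by
    intro S; unfold chi; rw [Finset.prod_mul_distrib]
  simp_rw [h1]
  have h2 := Finset.prod_one_add (s := (Finset.univ : Finset ι)) (f := fun i => rv (x i) * rv (y i))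
  rw [Finset.powerset_univ] at h2
  rw [← h2]
  split_ifs with h
  · subst h
    simp [rv_mul_self]
    norm_num
  · obtain ⟨i, hi⟩ := Function.ne_iff.mp h
    apply Finset.prod_eq_zero (Finset.mem_univ i)
    rcases Int.units_eq_one_or (x i) with h1 | h1 <;> rcases Int.units_eq_one_or (y i) with h2 | h2 <;>
      simp_all

/-- Fourier inversion for Boolean functions. -/
lemma fourier_inversion (f : (ι → ℤˣ) → ℤˣ) (y : ι → ℤˣ) :
    rv (f y) = ∑ S : Finset ι, fourier f S * chi S y := by
  unfold fourier expect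
  have : ∀ S : Finset ι, (∑ x, rv (f x) * chi S x) / 2 ^ Fintype.card ι * chi S y
      = (∑ x, rv (f x) * (chi S x * chi S y)) / 2 ^ Fintype.card ι := by
    intro S
    rw [div_mul_eq_mul_div, Finset.sum_mul]
    congr 1
    apply Finset.sum_congr rfl
    intro x _; ring
  simp_rw [this]
  rw [← Finset.sum_div, Finset.sum_comm]
  simp_rw [← Finset.mul_sum, sum_chi_chi]
  simp

lemma fourier_eq_zero_of_deg_lt (f : (ι → ℤˣ) → ℤˣ) (S : Finset ι) (h : deg f < S.card) :
    fourier f S = 0 := by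
  by_contra hne
  have : S.card ≤ deg f := by
    unfold deg
    exact Finset.le_sup (f := Finset.card) (by simp [hne])
  omega

lemma deg_le_iff (f : (ι → ℤˣ) → ℤˣ) (d : ℕ) :
    deg f ≤ d ↔ ∀ S : Finset ι, d < S.card → fourier f S = 0 := by
  constructor
  · intro h S hS
    exact fourier_eq_zero_of_deg_lt f S (lt_of_le_of_lt h hS)
  · intro h
    unfold deg
    apply Finset.sup_le
    intro S hS
    simp only [Finset.mem_filter, Finset.mem_univ, true_and] at hS
    by_contra hlt
    exact hS (h S (not_le.mp hlt))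

end

end Vale.Agent.P047
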