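import Vale.Agent.P047.Basic

/-!
# Biased Fourier analysis and the Boolean differential inequality (P047)

For a Boolean function `f` of degree at most `d` and `p(t) = ∑_S \hat f(S) t^|S|` (the mean of `f`
under the product measure of bias `t`) we prove `(1 - t^2) |p'(t)| ≤ d (1 - p(t)^2)`.
-/

set_option linter.unusedSectionVars false

namespace Vale.Agent.P047

open Finset

noncomputable section

variable {ι : Type*} [Fintype ι] [DecidableEq ι]

/-- the (unnormalised) density of the product measure of bias `t` -/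
def wt (t : ℝ) (x : ι → ℤˣ) : ℝ := ∏ i, (1 + t * rv (x i))

/-- expectation under the product measure of bias `t` -/
def Et (t : ℝ) (F : (ι → ℤˣ) → ℝ) : ℝ := expect (fun x => F x * wt t x)

/-- the shifted characters `∏_{i ∈ S} (x_i - t)` -/
def th (t : ℝ) (S : Finset ι) (x : ι → ℤˣ) : ℝ := ∏ i ∈ S, (rv (x i) - t)

lemma Et_prod (t : ℝ) (ψ : ι → ℤˣ → ℝ) :
    Et t (fun x : ι → ℤˣ => ∏ i, ψ i (x i)) = ∏ i, ((ψ i 1 * (1 + t) + ψ i (-1) * (1 - t)) / 2) := by
  unfold Et wt
  have : (fun x : ι → ℤˣ => (∏ i, ψ i (x i)) * ∏ i, (1 + t * rv (x i)))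
      = fun x => ∏ i, (fun i u => ψ i u * (1 + t * rv u)) i (x i) := by
    funext x; rw [← Finset.prod_mul_distrib]
  rw [this, expect_prod (fun i u => ψ i u * (1 + t * rv u))]
  apply Finset.prod_congr rfl
  intro i _
  simp only [rv_one, rv_neg_one]
  ring

lemma Et_add (t : ℝ) (F G : (ι → ℤˣ) → ℝ) : Et t (fun x => F x + G x) = Et t F + Et t G := by
  unfold Et
  rw [← expect_add]
  congr 1; funext x; ring

lemma Et_const_mul (t c : ℝ) (F : (ι → ℤˣ) → ℝ) : Et t (fun x => c * F x) = c * Et t F := by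
  unfold Et
  rw [← expect_const_mul]
  congr 1; funext x; ring

lemma Et_sum {α : Type*} (t : ℝ) (s : Finset α) (F : α → (ι → ℤˣ) → ℝ) :
    Et t (fun x => ∑ a ∈ s, F a x) = ∑ a ∈ s, Et t (F a) := by
  unfold Et
  rw [← expect_sum]
  congr 1; funext x; rw [Finset.sum_mul]

lemma wt_nonneg {t : ℝ} (ht : |t| ≤ 1) (x : ι → ℤˣ) : 0 ≤ wt t x := by
  unfold wt
  apply Finset.prod_nonneg
  intro i _
  have h := abs_le.1 ht
  rcases Int.units_eq_one_or (x i) with h1 | h1 <;> rw [h1] <;> simp <;> linarith [h.1, h.2]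

lemma wt_pos {t : ℝ} (ht : |t| < 1) (x : ι → ℤˣ) : 0 < wt t x := by
  unfold wt
  apply Finset.prod_pos
  intro i _
  have h := abs_lt.1 ht
  rcases Int.units_eq_one_or (x i) with h1 | h1 <;> rw [h1] <;> simp <;> linarith [h.1, h.2]

lemma Et_mono {t : ℝ} (ht : |t| ≤ 1) {F G : (ι → ℤˣ) → ℝ} (h : ∀ x, F x ≤ G x) :
    Et t F ≤ Et t G := by
  unfold Et expect
  apply div_le_div_of_nonneg_right _ (by positivity)
  apply Finset.sum_le_sum
  intro x _
  exact mul_le_mul_of_nonneg_right (h x) (wt_nonneg ht x)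

lemma Et_one (t : ℝ) : Et t (fun _ : ι → ℤˣ => (1 : ℝ)) = 1 := by
  have h := Et_prod (ι := ι) t (fun _ _ => (1 : ℝ))
  simp only [Finset.prod_const_one] at h
  rw [h]
  apply Finset.prod_eq_one
  intro i _
  ring

lemma th_eq_prod_ite (t : ℝ) (S : Finset ι) (x : ι → ℤˣ) :
    th t S x = ∏ i, (if i ∈ S then rv (x i) - t else 1) := by
  unfold th
  rw [Finset.prod_ite_mem]
  simp

lemma Et_th_mul_th (t : ℝ) (S T : Finset ι) :
    Et t (fun x => th t S x * th t T x) = if S = T then (1 - t ^ 2) ^ S.card else 0 := by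
  have : (fun x : ι → ℤˣ => th t S x * th t T x) = fun x => ∏ i, (fun i u =>
      (if i ∈ S then rv u - t else 1) * (if i ∈ T then rv u - t else 1)) i (x i) := by
    funext x
    rw [th_eq_prod_ite, th_eq_prod_ite, ← Finset.prod_mul_distrib]
  rw [this, Et_prod t (fun i u =>
      (if i ∈ S then rv u - t else 1) * (if i ∈ T then rv u - t else 1))]
  split_ifs with h
  · subst h
    have : ∀ i ∈ (univ : Finset ι), ((if i ∈ S then rv 1 - t else 1) * (if i ∈ S then rv 1 - t else 1) * (1 + t)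
        + (if i ∈ S then rv (-1) - t else 1) * (if i ∈ S then rv (-1) - t else 1) * (1 - t)) / 2
        = if i ∈ S then (1 - t ^ 2) else 1 := by
      intro i _
      by_cases hi : i ∈ S
      · simp [hi]; ring
      · simp [hi]
    rw [Finset.prod_congr rfl this, Finset.prod_ite_mem]
    simp
  · have hne : ∃ i, ¬ (i ∈ S ↔ i ∈ T) := by
      by_contra hcon
      exact h (Finset.ext fun i => by
        by_contra hi
        exact hcon ⟨i, hi⟩)
    obtain ⟨i, hi⟩ := hne
    apply Finset.prod_eq_zero (Finset.mem_univ i)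
    by_cases h1 : i ∈ S <;> by_cases h2 : i ∈ T
    · exact absurd (iff_of_true h1 h2) hi
    · simp [h1, h2]; ring
    · simp [h1, h2]; ring
    · exact absurd (iff_of_false h1 h2) hi

/-- bilinear Parseval identity in the shifted basis -/
lemma Et_bilin (t : ℝ) (a b : Finset ι → ℝ) :
    Et t (fun x => (∑ S, a S * th t S x) * (∑ T, b T * th t T x))
      = ∑ S, a S * b S * (1 - t ^ 2) ^ S.card := by
  have : (fun x : ι → ℤˣ => (∑ S, a S * th t S x) * (∑ T, b T * th t T x))
      = fun x => ∑ S, ∑ T, (a S * b T) * (th t S x * th t T x) := by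
    funext x
    rw [Finset.sum_mul_sum]
    apply Finset.sum_congr rfl; intro S _
    apply Finset.sum_congr rfl; intro T _
    ring
  rw [this, Et_sum]
  apply Finset.sum_congr rfl
  intro S _
  rw [Et_sum]
  have : ∀ T ∈ (univ : Finset (Finset ι)), Et t (fun x => (a S * b T) * (th t S x * th t T x))
      = if S = T then a S * b T * (1 - t ^ 2) ^ S.card else 0 := by
    intro T _
    rw [Et_const_mul, Et_th_mul_th]
    split_ifs <;> simp
  rw [Finset.sum_congr rfl this, Finset.sum_ite_eq]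
  simp

/-- coefficients of `f` in the shifted basis -/
def cf (f : (ι → ℤˣ) → ℤˣ) (t : ℝ) (S : Finset ι) : ℝ :=
  ∑ T ∈ univ.filter (fun T => S ⊆ T), fourier f T * t ^ (T \ S).card

lemma chi_eq_sum_th (t : ℝ) (T : Finset ι) (x : ι → ℤˣ) :
    chi T x = ∑ S ∈ T.powerset, th t S x * t ^ (T \ S).card := by
  unfold chi th
  have : ∀ i ∈ T, rv (x i) = (rv (x i) - t) + t := by intro i _; ring
  rw [Finset.prod_congr rfl this, Finset.prod_add]
  apply Finset.sum_congr rfl
  intro S _
  rw [Finset.prod_const]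

lemma expansion (f : (ι → ℤˣ) → ℤˣ) (t : ℝ) (x : ι → ℤˣ) :
    rv (f x) = ∑ S, cf f t S * th t S x := by
  rw [fourier_inversion f x]
  simp_rw [chi_eq_sum_th t, Finset.mul_sum]
  unfold cf
  simp_rw [Finset.sum_mul]
  have hc := Finset.sum_comm' (s := (univ : Finset (Finset ι))) (t := fun T => T.powerset)
    (t' := (univ : Finset (Finset ι))) (s' := fun S => univ.filter (fun T => S ⊆ T))
    (f := fun T S => fourier f T * (th t S x * t ^ (T \ S).card)) (by intro T S; simp)
  refine hc.trans ?_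
  apply Finset.sum_congr rfl; intro S _
  apply Finset.sum_congr rfl; intro T _
  ring

lemma cf_empty (f : (ι → ℤˣ) → ℤˣ) (t : ℝ) : cf f t ∅ = ∑ T, fourier f T * t ^ T.card := by
  simp [cf]

lemma cf_eq_zero (f : (ι → ℤˣ) → ℤˣ) (t : ℝ) {d : ℕ} (hdeg : deg f ≤ d) {S : Finset ι}
    (hS : d < S.card) : cf f t S = 0 := by
  unfold cf
  apply Finset.sum_eq_zero
  intro T hT
  simp only [Finset.mem_filter, Finset.mem_univ, true_and] at hT
  have : d < T.card := lt_of_lt_of_le hS (Finset.card_le_card hT)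
  rw [(deg_le_iff f d).1 hdeg T this, zero_mul]

lemma sum_cf_singleton (f : (ι → ℤˣ) → ℤˣ) (t : ℝ) :
    ∑ i, cf f t {i} = ∑ T, fourier f T * ((T.card : ℝ) * t ^ (T.card - 1)) := by
  have h1 : ∀ i, cf f t {i} = ∑ T, if i ∈ T then fourier f T * t ^ (T.card - 1) else 0 := by
    intro i
    unfold cf
    rw [Finset.sum_filter]
    apply Finset.sum_congr rfl
    intro T _
    by_cases hi : i ∈ T
    · have : (T \ {i}).card = T.card - 1 := by
        rw [Finset.sdiff_singleton_eq_erase, Finset.card_erase_of_mem hi]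
      simp [hi, this]
    · simp [hi]
  simp_rw [h1]
  rw [Finset.sum_comm]
  apply Finset.sum_congr rfl
  intro T _
  rw [Finset.sum_ite_mem, Finset.univ_inter, Finset.sum_const, nsmul_eq_mul]
  ring

lemma th_erase (t : ℝ) {S : Finset ι} {i : ι} (hi : i ∈ S) (x : ι → ℤˣ) :
    th t S x = (rv (x i) - t) * th t (S.erase i) x := by
  unfold th
  rw [Finset.mul_prod_erase S (fun j => rv (x j) - t) hi]

lemma th_update_of_notMem (t : ℝ) {S : Finset ι} {i : ι} (hi : i ∉ S) (x : ι → ℤˣ) (u : ℤˣ) :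
    th t S (Function.update x i u) = th t S x := by
  unfold th
  apply Finset.prod_congr rfl
  intro j hj
  have : j ≠ i := fun h => hi (h ▸ hj)
  rw [Function.update_of_ne this]

lemma th_update_of_mem (t : ℝ) {S : Finset ι} {i : ι} (hi : i ∈ S) (x : ι → ℤˣ) (u : ℤˣ) :
    th t S (Function.update x i u) = (rv u - t) * th t (S.erase i) x := by
  rw [th_erase t hi, Function.update_self, th_update_of_notMem t (Finset.notMem_erase i S)]

/-- the discrete derivative of `f` in direction `i`, expanded in the shifted basis -/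
def gi (f : (ι → ℤˣ) → ℤˣ) (t : ℝ) (i : ι) (x : ι → ℤˣ) : ℝ :=
  ∑ S, if i ∈ S then cf f t S * th t (S.erase i) x else 0

lemma gi_eq (f : (ι → ℤˣ) → ℤˣ) (t : ℝ) (i : ι) (x : ι → ℤˣ) :
    gi f t i x = (rv (f (Function.update x i 1)) - rv (f (Function.update x i (-1)))) / 2 := by
  rw [expansion f t (Function.update x i 1), expansion f t (Function.update x i (-1)),
    ← Finset.sum_sub_distrib, Finset.sum_div]
  unfold gi
  apply Finset.sum_congr rfl
  intro S _
  by_cases hi : i ∈ S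
  · rw [if_pos hi, th_update_of_mem t hi, th_update_of_mem t hi]
    simp only [rv_one, rv_neg_one]
    ring
  · rw [if_neg hi, th_update_of_notMem t hi, th_update_of_notMem t hi]
    ring

lemma gi_sq (f : (ι → ℤˣ) → ℤˣ) (t : ℝ) (i : ι) (x : ι → ℤˣ) :
    |gi f t i x| = gi f t i x ^ 2 := by
  rw [gi_eq]
  rcases Int.units_eq_one_or (f (Function.update x i 1)) with h1 | h1 <;>
    rcases Int.units_eq_one_or (f (Function.update x i (-1))) with h2 | h2 <;>
    rw [h1, h2] <;> norm_num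

lemma key_ineq (f : (ι → ℤˣ) → ℤˣ) {t : ℝ} (ht : |t| ≤ 1) (i : ι) :
    (1 - t ^ 2) * |cf f t {i}| ≤ ∑ S, if i ∈ S then cf f t S ^ 2 * (1 - t ^ 2) ^ S.card else 0 := by
  set a : Finset ι → ℝ := fun S => if i ∈ S then cf f t S else 0 with ha
  set b : Finset ι → ℝ := fun S => if S = {i} then 1 else 0 with hb
  have hv : 0 ≤ 1 - t ^ 2 := by
    have := abs_le.1 ht
    nlinarith [this.1, this.2]
  have hA : ∀ x, ∑ S, a S * th t S x = (rv (x i) - t) * gi f t i x := by
    intro x
    unfold gi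
    rw [Finset.mul_sum]
    apply Finset.sum_congr rfl
    intro S _
    by_cases hi : i ∈ S
    · simp only [ha, if_pos hi]
      rw [th_erase t hi]; ring
    · simp only [ha, if_neg hi]; ring
  have hB : ∀ x, ∑ T, b T * th t T x = rv (x i) - t := by
    intro x
    simp only [hb, ite_mul, one_mul, zero_mul]
    rw [Finset.sum_ite_eq']
    simp [th]
  have h1 := Et_bilin t a b
  have h2 := Et_bilin t a a
  have e1 : ∑ S, a S * b S * (1 - t ^ 2) ^ S.card = cf f t {i} * (1 - t ^ 2) := by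
    have : ∀ S ∈ (univ : Finset (Finset ι)), a S * b S * (1 - t ^ 2) ^ S.card
        = if S = {i} then cf f t {i} * (1 - t ^ 2) else 0 := by
      intro S _
      by_cases hS : S = {i}
      · subst hS; simp [ha, hb]
      · simp [hb, hS]
    rw [Finset.sum_congr rfl this, Finset.sum_ite_eq']
    simp
  have e2 : ∑ S, a S * a S * (1 - t ^ 2) ^ S.card
      = ∑ S, if i ∈ S then cf f t S ^ 2 * (1 - t ^ 2) ^ S.card else 0 := by
    apply Finset.sum_congr rfl
    intro S _
    by_cases hi : i ∈ S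
    · simp only [ha, if_pos hi]; ring
    · simp only [ha, if_neg hi]; ring
  rw [e1] at h1
  rw [e2] at h2
  have p1 : ∀ x, (∑ S, a S * th t S x) * (∑ T, b T * th t T x)
      ≤ (∑ S, a S * th t S x) * (∑ T, a T * th t T x) := by
    intro x
    rw [hA, hB]
    have := gi_sq f t i x
    have h3 : gi f t i x ≤ gi f t i x ^ 2 := this ▸ le_abs_self _
    nlinarith [sq_nonneg (rv (x i) - t)]
  have p2 : ∀ x, -((∑ S, a S * th t S x) * (∑ T, b T * th t T x))
      ≤ (∑ S, a S * th t S x) * (∑ T, a T * th t T x) := by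
    intro x
    rw [hA, hB]
    have := gi_sq f t i x
    have h3 : -gi f t i x ≤ gi f t i x ^ 2 := this ▸ neg_le_abs _
    nlinarith [sq_nonneg (rv (x i) - t)]
  have q1 := Et_mono ht p1
  have q2 := Et_mono ht p2
  have q3 : Et t (fun x => -((∑ S, a S * th t S x) * (∑ T, b T * th t T x)))
      = -(cf f t {i} * (1 - t ^ 2)) := by
    have := Et_const_mul t (-1) (fun x => (∑ S, a S * th t S x) * (∑ T, b T * th t T x))
    rw [h1] at this
    rw [← neg_one_mul, ← this]
    congr 1; funext x; ring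
  rw [h1, h2] at q1
  rw [q3, h2] at q2
  rw [mul_comm, ← abs_of_nonneg hv, ← abs_mul, abs_of_nonneg hv]
  exact abs_le.2 ⟨by linarith, q1⟩

/-- the mean of `f` under bias `t`, as a polynomial in `t` -/
def pb (f : (ι → ℤˣ) → ℤˣ) (t : ℝ) : ℝ := ∑ T, fourier f T * t ^ T.card

/-- its derivative -/
def pb' (f : (ι → ℤˣ) → ℤˣ) (t : ℝ) : ℝ := ∑ T, fourier f T * ((T.card : ℝ) * t ^ (T.card - 1))

lemma pb_hasDerivAt (f : (ι → ℤˣ) → ℤˣ) (t : ℝ) : HasDerivAt (pb f) (pb' f t) t := by
  unfold pb pb'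
  have : ∀ T ∈ (univ : Finset (Finset ι)), HasDerivAt (fun s : ℝ => fourier f T * s ^ T.card)
      (fourier f T * ((T.card : ℝ) * t ^ (T.card - 1))) t := by
    intro T _
    exact (hasDerivAt_pow T.card t).const_mul _
  have h := HasDerivAt.fun_sum this
  exact h

lemma parseval_t (f : (ι → ℤˣ) → ℤˣ) (t : ℝ) :
    ∑ S, cf f t S ^ 2 * (1 - t ^ 2) ^ S.card = 1 := by
  have h := Et_bilin t (cf f t) (cf f t)
  have : (fun x : ι → ℤˣ => (∑ S, cf f t S * th t S x) * (∑ T, cf f t T * th t T x))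
      = fun _ => (1 : ℝ) := by
    funext x
    rw [← expansion f t x, rv_mul_self]
  rw [this, Et_one] at h
  refine Eq.trans ?_ h.symm
  apply Finset.sum_congr rfl
  intro S _; ring

lemma sum_nonempty (f : (ι → ℤˣ) → ℤˣ) (t : ℝ) :
    ∑ S : Finset ι, (if S = ∅ then 0 else cf f t S ^ 2 * (1 - t ^ 2) ^ S.card) = 1 - pb f t ^ 2 := by
  have h := parseval_t f t
  have h2 : ∑ S : Finset ι, (if S = ∅ then cf f t S ^ 2 * (1 - t ^ 2) ^ S.card else 0) = pb f t ^ 2 := by
    rw [Finset.sum_ite_eq']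
    simp [cf_empty, pb]
  have h3 : 1 - pb f t ^ 2 = (∑ S, cf f t S ^ 2 * (1 - t ^ 2) ^ S.card)
      - ∑ S : Finset ι, (if S = ∅ then cf f t S ^ 2 * (1 - t ^ 2) ^ S.card else 0) := by
    rw [h, h2]
  rw [h3, ← Finset.sum_sub_distrib]
  apply Finset.sum_congr rfl
  intro S _
  split_ifs <;> ring

/-- the Boolean differential inequality -/
theorem diff_ineq (f : (ι → ℤˣ) → ℤˣ) {d : ℕ} (hdeg : deg f ≤ d) {t : ℝ} (ht : |t| ≤ 1) :
    (1 - t ^ 2) * |pb' f t| ≤ d * (1 - pb f t ^ 2) := by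
  have hv : 0 ≤ 1 - t ^ 2 := by
    have := abs_le.1 ht
    nlinarith [this.1, this.2]
  have h1 : pb' f t = ∑ i, cf f t {i} := (sum_cf_singleton f t).symm
  have h2 : |∑ i, cf f t {i}| ≤ ∑ i, |cf f t {i}| := Finset.abs_sum_le_sum_abs _ _
  have h3 : ∑ i, ∑ S : Finset ι, (if i ∈ S then cf f t S ^ 2 * (1 - t ^ 2) ^ S.card else 0)
      = ∑ S : Finset ι, (S.card : ℝ) * (cf f t S ^ 2 * (1 - t ^ 2) ^ S.card) := by
    rw [Finset.sum_comm]
    apply Finset.sum_congr rfl
    intro S _
    rw [Finset.sum_ite_mem, Finset.univ_inter, Finset.sum_const, nsmul_eq_mul]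
  have h4 : ∀ S ∈ (univ : Finset (Finset ι)), (S.card : ℝ) * (cf f t S ^ 2 * (1 - t ^ 2) ^ S.card)
      ≤ d * (if S = ∅ then 0 else cf f t S ^ 2 * (1 - t ^ 2) ^ S.card) := by
    intro S _
    by_cases hS : S = ∅
    · subst hS; simp
    · rw [if_neg hS]
      by_cases hc : S.card ≤ d
      · apply mul_le_mul_of_nonneg_right (by exact_mod_cast hc)
        exact mul_nonneg (sq_nonneg _) (pow_nonneg hv _)
      · rw [cf_eq_zero f t hdeg (not_le.1 hc)]
        simp
  calc (1 - t ^ 2) * |pb' f t| ≤ (1 - t ^ 2) * ∑ i, |cf f t {i}| := by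
        rw [h1]; exact mul_le_mul_of_nonneg_left h2 hv
    _ = ∑ i, (1 - t ^ 2) * |cf f t {i}| := by rw [Finset.mul_sum]
    _ ≤ ∑ i, ∑ S : Finset ι, (if i ∈ S then cf f t S ^ 2 * (1 - t ^ 2) ^ S.card else 0) :=
        Finset.sum_le_sum (fun i _ => key_ineq f ht i)
    _ = ∑ S : Finset ι, (S.card : ℝ) * (cf f t S ^ 2 * (1 - t ^ 2) ^ S.card) := h3
    _ ≤ ∑ S : Finset ι, (d : ℝ) * (if S = ∅ then 0 else cf f t S ^ 2 * (1 - t ^ 2) ^ S.card) :=
        Finset.sum_le_sum h4
    _ = d * (1 - pb f t ^ 2) := by rw [← Finset.mul_sum, sum_nonempty]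

lemma pb_sq_le_one (f : (ι → ℤˣ) → ℤˣ) {t : ℝ} (ht : |t| ≤ 1) : pb f t ^ 2 ≤ 1 := by
  have hv : 0 ≤ 1 - t ^ 2 := by
    have := abs_le.1 ht
    nlinarith [this.1, this.2]
  have h := sum_nonempty f t
  have : 0 ≤ ∑ S : Finset ι, (if S = ∅ then 0 else cf f t S ^ 2 * (1 - t ^ 2) ^ S.card) := by
    apply Finset.sum_nonneg
    intro S _
    split_ifs
    · exact le_rfl
    · exact mul_nonneg (sq_nonneg _) (pow_nonneg hv _)
  linarith

/-- strictness for non-constant functions -/
lemma pb_sq_lt_one (f : (ι → ℤˣ) → ℤˣ) {t : ℝ} (ht : |t| < 1) (hne : ∃ x y, f x ≠ f y) :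
    pb f t ^ 2 < 1 := by
  have hv : 0 < 1 - t ^ 2 := by
    have := abs_lt.1 ht
    nlinarith [this.1, this.2]
  by_contra hcon
  have h1 : pb f t ^ 2 = 1 := le_antisymm (pb_sq_le_one f ht.le) (not_lt.1 hcon)
  have h := sum_nonempty f t
  rw [h1, sub_self] at h
  have hz := (Finset.sum_eq_zero_iff_of_nonneg (by
    intro S _
    split_ifs
    · exact le_rfl
    · exact mul_nonneg (sq_nonneg _) (pow_nonneg hv.le _))).1 h
  have hc : ∀ S : Finset ι, S ≠ ∅ → cf f t S = 0 := by
    intro S hS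
    have := hz S (Finset.mem_univ S)
    rw [if_neg hS] at this
    rcases mul_eq_zero.1 this with h2 | h2
    · exact pow_eq_zero_iff (two_ne_zero) |>.1 h2
    · exact absurd h2 (pow_pos hv _).ne'
  have hconst : ∀ x, rv (f x) = cf f t ∅ := by
    intro x
    rw [expansion f t x, Finset.sum_eq_single ∅]
    · simp [th]
    · intro S _ hS; rw [hc S hS, zero_mul]
    · intro h; exact absurd (Finset.mem_univ _) h
  obtain ⟨x, y, hxy⟩ := hne
  apply hxy
  have : rv (f x) = rv (f y) := by rw [hconst x, hconst y]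
  rcases Int.units_eq_one_or (f x) with h1 | h1 <;> rcases Int.units_eq_one_or (f y) with h2 | h2 <;>
    rw [h1, h2] at this ⊢ <;> norm_num at this

lemma levelOne_eq_zero_of_const (f : (ι → ℤˣ) → ℤˣ) (hc : ∀ x y, f x = f y) : levelOne f = 0 := by
  unfold levelOne
  apply Finset.sum_eq_zero
  intro i _
  unfold fourier
  have : (fun x : ι → ℤˣ => rv (f x) * chi {i} x) = fun x => rv (f (fun _ => 1)) * chi {i} x := by
    funext x; rw [hc x (fun _ => 1)]
  rw [this, expect_const_mul, expect_chi]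
  simp

/-- coefficients of the bias polynomial -/
def ac (f : (ι → ℤˣ) → ℤˣ) (j : ℕ) : ℝ := ∑ T : Finset ι, if T.card = j then fourier f T else 0

lemma pb_eq_poly (f : (ι → ℤˣ) → ℤˣ) {d : ℕ} (hdeg : deg f ≤ d) (t : ℝ) :
    pb f t = ∑ j ∈ range (d + 1), ac f j * t ^ j := by
  unfold pb ac
  simp_rw [Finset.sum_mul]
  rw [Finset.sum_comm]
  apply Finset.sum_congr rfl
  intro T _
  have : ∀ j ∈ range (d + 1), (if T.card = j then fourier f T else 0) * t ^ j
      = if T.card = j then fourier f T * t ^ T.card else 0 := by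
    intro j _
    split_ifs with h
    · rw [h]
    · ring
  rw [Finset.sum_congr rfl this, Finset.sum_ite_eq]
  split_ifs with h
  · rfl
  · have : d < T.card := by
      simp only [Finset.mem_range] at h; omega
    rw [(deg_le_iff f d).1 hdeg T this, zero_mul]

lemma ac_one (f : (ι → ℤˣ) → ℤˣ) : ac f 1 = levelOne f := by
  unfold ac levelOne
  rw [← Finset.sum_filter]
  have : (univ.filter (fun T : Finset ι => T.card = 1))
      = univ.map ⟨fun i => ({i} : Finset ι), Finset.singleton_injective⟩ := by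
    ext T
    simp only [Finset.mem_filter, Finset.mem_univ, true_and, Finset.mem_map,
      Function.Embedding.coeFn_mk, Finset.card_eq_one]
    constructor
    · rintro ⟨a, rfl⟩; exact ⟨a, rfl⟩
    · rintro ⟨a, rfl⟩; exact ⟨a, rfl⟩
  rw [this, Finset.sum_map]
  rfl

end

end Vale.Agent.P047
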