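import Vale.Agent.P047.Basic

/-!
# Block composition of Boolean functions and its Fourier coefficients.
-/

namespace Vale.Agent.P047

open Finset

noncomputable section

variable {ι κ : Type*} [Fintype ι] [DecidableEq ι] [Fintype κ] [DecidableEq κ]

/-- Block composition `f ∘ (g, …, g)` on disjoint blocks of variables. -/
def comp (f : (ι → ℤˣ) → ℤˣ) (g : (κ → ℤˣ) → ℤˣ) : (ι × κ → ℤˣ) → ℤˣ :=
  fun x => f (fun i => g (fun k => x (i, k)))

/-- Independence of blocks. -/
lemma expect_block (φ : ι → (κ → ℤˣ) → ℝ) :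
    expect (fun x : ι × κ → ℤˣ => ∏ i, φ i (fun k => x (i, k))) = ∏ i, expect (φ i) := by
  unfold expect
  have h1 : ∑ x : ι × κ → ℤˣ, ∏ i, φ i (fun k => x (i, k)) = ∑ y : ι → κ → ℤˣ, ∏ i, φ i (y i) :=
    (Equiv.curry ι κ ℤˣ).sum_comp (fun y => ∏ i, φ i (y i))
  have h2 := Finset.prod_univ_sum (fun _ : ι => (Finset.univ : Finset (κ → ℤˣ))) φ
  rw [Fintype.piFinset_univ] at h2
  rw [h1, ← h2, Finset.prod_div_distrib]
  congr 1
  simp only [Fintype.card_prod, Finset.prod_const, Finset.card_univ]
  rw [← pow_mul, mul_comm]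

/-- The slice of a set of variables of `ι × κ` in block `i`. -/
def slice (T : Finset (ι × κ)) (i : ι) : Finset κ := univ.filter (fun k => (i, k) ∈ T)

omit [Fintype ι] in
lemma mem_slice (T : Finset (ι × κ)) (i : ι) (k : κ) : k ∈ slice T i ↔ (i, k) ∈ T := by
  simp [slice]

lemma chi_slices (T : Finset (ι × κ)) (x : ι × κ → ℤˣ) :
    chi T x = ∏ i, chi (slice T i) (fun k => x (i, k)) := by
  rw [chi_eq_prod_ite, Fintype.prod_prod_type]
  apply Finset.prod_congr rfl
  intro i _
  rw [chi_eq_prod_ite]
  apply Finset.prod_congr rfl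
  intro k _
  simp [mem_slice]

lemma card_slices (T : Finset (ι × κ)) : T.card = ∑ i, (slice T i).card := by
  have h : T = univ.filter (fun p => p ∈ T) := by simp
  conv_lhs => rw [h]
  rw [Finset.card_filter, Fintype.sum_prod_type]
  apply Finset.sum_congr rfl
  intro i _
  unfold slice
  rw [Finset.card_filter]

lemma fourier_comp (f : (ι → ℤˣ) → ℤˣ) (g : (κ → ℤˣ) → ℤˣ) (T : Finset (ι × κ)) :
    fourier (comp f g) T = ∑ S : Finset ι, fourier f S *
      ∏ i, (if i ∈ S then fourier g (slice T i) else if slice T i = ∅ then 1 else 0) := by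
  have key : ∀ S : Finset ι,
      expect (fun x : ι × κ → ℤˣ => chi S (fun i => g (fun k => x (i, k))) * chi T x)
      = ∏ i, (if i ∈ S then fourier g (slice T i) else if slice T i = ∅ then 1 else 0) := by
    intro S
    have h1 : (fun x : ι × κ → ℤˣ => chi S (fun i => g (fun k => x (i, k))) * chi T x)
        = fun x => ∏ i, (fun i (z : κ → ℤˣ) => (if i ∈ S then rv (g z) else 1) * chi (slice T i) z) i
            (fun k => x (i, k)) := by
      funext x
      rw [chi_eq_prod_ite, chi_slices, ← Finset.prod_mul_distrib]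
    rw [h1, expect_block (fun i (z : κ → ℤˣ) => (if i ∈ S then rv (g z) else 1) * chi (slice T i) z)]
    apply Finset.prod_congr rfl
    intro i _
    by_cases hi : i ∈ S
    · simp only [hi, if_true]
      rfl
    · simp only [hi, if_false, one_mul]
      exact expect_chi _
  have h0 : fourier (comp f g) T = expect (fun x : ι × κ → ℤˣ =>
      ∑ S : Finset ι, fourier f S * (chi S (fun i => g (fun k => x (i, k))) * chi T x)) := by
    unfold fourier comp
    congr 1
    funext x
    rw [fourier_inversion f, Finset.sum_mul]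
    apply Finset.sum_congr rfl
    intro S _
    unfold fourier
    ring
  rw [h0, expect_sum]
  apply Finset.sum_congr rfl
  intro S _
  rw [expect_const_mul, key]

omit [Fintype ι] in
lemma slice_empty (i : ι) : slice (∅ : Finset (ι × κ)) i = ∅ := by
  simp [slice]

lemma slice_singleton (i0 i : ι) (k0 : κ) :
    slice ({(i0, k0)} : Finset (ι × κ)) i = if i = i0 then {k0} else ∅ := by
  ext k
  by_cases h : i = i0
  · subst h; simp [mem_slice]
  · simp [mem_slice, h]

/-- Composition with a balanced inner function keeps the mean of the outer function. -/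
lemma fourier_comp_empty (f : (ι → ℤˣ) → ℤˣ) (g : (κ → ℤˣ) → ℤˣ) (hg : fourier g ∅ = 0) :
    fourier (comp f g) ∅ = fourier f ∅ := by
  rw [fourier_comp, Finset.sum_eq_single ∅]
  · simp [slice_empty]
  · intro S _ hS
    obtain ⟨i, hi⟩ := Finset.nonempty_iff_ne_empty.mpr hS
    rw [Finset.prod_eq_zero (Finset.mem_univ i), mul_zero]
    simp [hi, slice_empty, hg]
  · simp

lemma fourier_comp_singleton (f : (ι → ℤˣ) → ℤˣ) (g : (κ → ℤˣ) → ℤˣ) (hg : fourier g ∅ = 0)
    (i0 : ι) (k0 : κ) :
    fourier (comp f g) {(i0, k0)} = fourier f {i0} * fourier g {k0} := by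
  rw [fourier_comp, Finset.sum_eq_single {i0}]
  · congr 1
    rw [Finset.prod_eq_single i0]
    · simp [slice_singleton]
    · intro i _ hi
      simp [slice_singleton, hi]
    · simp
  · intro S _ hS
    by_cases h0 : i0 ∈ S
    · have : ∃ i ∈ S, i ≠ i0 := by
        by_contra hcon
        push Not at hcon
        apply hS
        ext j
        simp only [Finset.mem_singleton]
        constructor
        · intro hj; exact hcon j hj
        · intro hj; rw [hj]; exact h0
      obtain ⟨i, hi, hne⟩ := this
      rw [Finset.prod_eq_zero (Finset.mem_univ i), mul_zero]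
      simp [hi, slice_singleton, hne, hg]
    · rw [Finset.prod_eq_zero (Finset.mem_univ i0), mul_zero]
      simp [h0, slice_singleton]
  · simp

lemma levelOne_comp (f : (ι → ℤˣ) → ℤˣ) (g : (κ → ℤˣ) → ℤˣ) (hg : fourier g ∅ = 0) :
    levelOne (comp f g) = levelOne f * levelOne g := by
  unfold levelOne
  rw [Fintype.sum_prod_type, Finset.sum_mul_sum]
  apply Finset.sum_congr rfl
  intro i _
  apply Finset.sum_congr rfl
  intro k _
  exact fourier_comp_singleton f g hg i k

lemma deg_comp_le (f : (ι → ℤˣ) → ℤˣ) (g : (κ → ℤˣ) → ℤˣ) :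
    deg (comp f g) ≤ deg f * deg g := by
  rw [deg_le_iff]
  intro T hT
  rw [fourier_comp]
  apply Finset.sum_eq_zero
  intro S _
  by_contra hne
  have hf : fourier f S ≠ 0 := left_ne_zero_of_mul hne
  have hp : ∏ i, (if i ∈ S then fourier g (slice T i) else if slice T i = ∅ then 1 else 0) ≠ (0 : ℝ) :=
    right_ne_zero_of_mul hne
  rw [Finset.prod_ne_zero_iff] at hp
  have hS : S.card ≤ deg f := by
    by_contra hlt
    exact hf (fourier_eq_zero_of_deg_lt f S (not_le.mp hlt))
  have hi : ∀ i, (slice T i).card ≤ if i ∈ S then deg g else 0 := by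
    intro i
    have := hp i (Finset.mem_univ i)
    by_cases h : i ∈ S
    · simp only [h, if_true] at this ⊢
      by_contra hlt
      exact this (fourier_eq_zero_of_deg_lt g _ (not_le.mp hlt))
    · simp only [h, if_false] at this ⊢
      by_cases h2 : slice T i = ∅
      · simp [h2]
      · simp [h2] at this
  have : T.card ≤ S.card * deg g := by
    rw [card_slices]
    calc ∑ i, (slice T i).card ≤ ∑ i, (if i ∈ S then deg g else 0) := Finset.sum_le_sum (fun i _ => hi i)
      _ = S.card * deg g := by simp
  have h3 : S.card * deg g ≤ deg f * deg g := Nat.mul_le_mul_right _ hS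
  omega

end

end Vale.Agent.P047
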