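import Vale.Agent.P047.Basic

/-!
# The level-one sum and fractional partitions into monochromatic subcubes.
-/

namespace Vale.Agent.P047

open Finset

noncomputable section

variable {ι : Type*} [Fintype ι] [DecidableEq ι]

/-- `x` lies in the subcube described by the partial assignment `ρ`
(`ρ i = some s` fixes the coordinate `i` to the sign `s`, `ρ i = none` leaves it free). -/
def InCube (ρ : ι → Option ℤˣ) (x : ι → ℤˣ) : Prop := ∀ i s, ρ i = some s → x i = s

/-- The codimension (number of fixed coordinates) of the subcube described by `ρ`. -/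
def codim (ρ : ι → Option ℤˣ) : ℕ := (univ.filter (fun i => (ρ i).isSome)).card

/-- The fixed value at coordinate `i` as a real number, `0` if the coordinate is free. -/
def sig (ρ : ι → Option ℤˣ) (i : ι) : ℝ := match ρ i with
  | none => 0
  | some s => rv s

/-- real indicator of a subcube -/
def ind (ρ : ι → Option ℤˣ) (x : ι → ℤˣ) : ℝ := by
  classical exact if InCube ρ x then 1 else 0

omit [DecidableEq ι] in
lemma ind_eq_prod (ρ : ι → Option ℤˣ) (x : ι → ℤˣ) :
    ind ρ x = ∏ i, (match ρ i with
      | none => (1 : ℝ)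
      | some s => (1 + rv s * rv (x i)) / 2) := by
  classical
  unfold ind
  split_ifs with h
  · symm
    apply Finset.prod_eq_one
    intro i _
    cases hi : ρ i with
    | none => rfl
    | some s =>
      have := h i s hi
      simp only [this, rv_mul_self]
      norm_num
  · symm
    unfold InCube at h
    push Not at h
    obtain ⟨i, s, hi, hne⟩ := h
    apply Finset.prod_eq_zero (Finset.mem_univ i)
    simp only [hi]
    rcases Int.units_eq_one_or (x i) with h1 | h1 <;> rcases Int.units_eq_one_or s with h2 | h2 <;>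
      simp_all

lemma expect_ind_chi (ρ : ι → Option ℤˣ) (S : Finset ι) :
    expect (fun x => ind ρ x * chi S x) = (1 / 2) ^ codim ρ * ∏ i ∈ S, sig ρ i := by
  have h1 : (fun x : ι → ℤˣ => ind ρ x * chi S x) = fun x => ∏ i,
      (fun i (u : ℤˣ) => (match ρ i with
        | none => (1 : ℝ)
        | some s => (1 + rv s * rv u) / 2) * (if i ∈ S then rv u else 1)) i (x i) := by
    funext x
    rw [ind_eq_prod, chi_eq_prod_ite, ← Finset.prod_mul_distrib]
  rw [h1, expect_prod (fun i (u : ℤˣ) => (match ρ i with
        | none => (1 : ℝ)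
        | some s => (1 + rv s * rv u) / 2) * (if i ∈ S then rv u else 1))]
  have h2 : (1 / 2 : ℝ) ^ codim ρ = ∏ i, (if (ρ i).isSome then (1 / 2 : ℝ) else 1) := by
    unfold codim
    rw [Finset.prod_ite, Finset.prod_const, Finset.prod_const_one, mul_one]
  have h3 : ∏ i ∈ S, sig ρ i = ∏ i, (if i ∈ S then sig ρ i else 1) := by
    rw [Finset.prod_ite_mem]; simp
  rw [h2, h3, ← Finset.prod_mul_distrib]
  apply Finset.prod_congr rfl
  intro i _
  unfold sig
  cases hi : ρ i with
  | none => by_cases hS : i ∈ S <;> simp [hS]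
  | some s =>
    by_cases hS : i ∈ S
    · rcases Int.units_eq_one_or s with h | h <;> simp [hS, h] <;> norm_num
    · simp [hS]; ring

omit [Fintype ι] [DecidableEq ι] in
lemma sig_sq (ρ : ι → Option ℤˣ) (i : ι) : sig ρ i * sig ρ i = if (ρ i).isSome then 1 else 0 := by
  unfold sig
  cases hi : ρ i with
  | none => simp
  | some s => simp [rv_mul_self]

omit [DecidableEq ι] in
lemma sum_sig_sq (ρ : ι → Option ℤˣ) : ∑ i, sig ρ i * sig ρ i = codim ρ := by
  simp_rw [sig_sq]
  unfold codim
  rw [Finset.sum_ite]
  simp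

/-- a point of the subcube -/
def basePoint (ρ : ι → Option ℤˣ) : ι → ℤˣ := fun i => (ρ i).getD 1

omit [Fintype ι] [DecidableEq ι] in
lemma basePoint_mem (ρ : ι → Option ℤˣ) : InCube ρ (basePoint ρ) := by
  intro i s hi
  simp [basePoint, hi]

/-- Main inequality: for a fractional partition of the cube into subcubes on which `f` is constant,
the square of the level-one sum is at most the average codimension. -/
theorem levelOne_sq_le {Q : Type*} [Fintype Q] (f : (ι → ℤˣ) → ℤˣ) (ρ : Q → ι → Option ℤˣ)
    (α : Q → ℝ) (hα : ∀ q, 0 ≤ α q)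
    (hmono : ∀ q x y, InCube (ρ q) x → InCube (ρ q) y → f x = f y)
    (hcover : ∀ x, ∑ q, α q * ind (ρ q) x = 1) :
    (∑ q, α q * (1 / 2) ^ codim (ρ q) = 1) ∧
    (levelOne f) ^ 2 ≤ ∑ q, α q * (1 / 2) ^ codim (ρ q) * codim (ρ q) := by
  classical
  set w : Q → ℝ := fun q => α q * (1 / 2) ^ codim (ρ q) with hw
  have hw0 : ∀ q, 0 ≤ w q := fun q => mul_nonneg (hα q) (by positivity)
  -- Fourier coefficients of the constant function one
  have hS : ∀ S : Finset ι, ∑ q, w q * ∏ i ∈ S, sig (ρ q) i = if S = ∅ then 1 else 0 := by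
    intro S
    have h1 : expect (fun x : ι → ℤˣ => ∑ q, α q * (ind (ρ q) x * chi S x)) = expect (chi S) := by
      congr 1
      funext x
      have : ∑ q, α q * (ind (ρ q) x * chi S x) = (∑ q, α q * ind (ρ q) x) * chi S x := by
        rw [Finset.sum_mul]
        apply Finset.sum_congr rfl
        intro q _; ring
      rw [this, hcover, one_mul]
    rw [expect_sum, expect_chi] at h1
    rw [← h1]
    apply Finset.sum_congr rfl
    intro q _
    rw [expect_const_mul, expect_ind_chi]
    simp only [hw]; ring
  have hsum1 : ∑ q, w q = 1 := by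
    have := hS ∅
    simpa using this
  set v : Q → ℝ := fun q => rv (f (basePoint (ρ q))) with hv
  set s : Q → ℝ := fun q => ∑ i, sig (ρ q) i with hs
  have hf : ∀ x, rv (f x) = ∑ q, α q * (ind (ρ q) x * v q) := by
    intro x
    have : ∑ q, α q * (ind (ρ q) x * v q) = ∑ q, (α q * ind (ρ q) x) * rv (f x) := by
      apply Finset.sum_congr rfl
      intro q _
      by_cases hx : InCube (ρ q) x
      · have : f (basePoint (ρ q)) = f x := hmono q _ _ (basePoint_mem _) hx
        simp only [hv, this]; ring
      · simp [ind, hx]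
    rw [this, ← Finset.sum_mul, hcover, one_mul]
  have hcoef : ∀ i, fourier f {i} = ∑ q, w q * v q * sig (ρ q) i := by
    intro i
    unfold fourier
    have : (fun x : ι → ℤˣ => rv (f x) * chi {i} x)
        = fun x => ∑ q, (α q * v q) * (ind (ρ q) x * chi {i} x) := by
      funext x
      rw [hf x, Finset.sum_mul]
      apply Finset.sum_congr rfl
      intro q _; ring
    rw [this, expect_sum]
    apply Finset.sum_congr rfl
    intro q _
    rw [expect_const_mul, expect_ind_chi]
    simp only [hw, Finset.prod_singleton]; ring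
  have hW : levelOne f = ∑ q, w q * v q * s q := by
    unfold levelOne
    simp_rw [hcoef]
    rw [Finset.sum_comm]
    apply Finset.sum_congr rfl
    intro q _
    rw [← Finset.mul_sum]
  have hv2 : ∀ q, v q * v q = 1 := fun q => rv_mul_self _
  -- Cauchy-Schwarz
  have hCS : (∑ q, w q * v q * s q) ^ 2 ≤ (∑ q, w q) * (∑ q, w q * (s q * s q)) := by
    have := Finset.sum_mul_sq_le_sq_mul_sq Finset.univ (fun q => Real.sqrt (w q) * v q)
      (fun q => Real.sqrt (w q) * s q)
    have e1 : ∀ q, Real.sqrt (w q) * v q * (Real.sqrt (w q) * s q) = w q * v q * s q := by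
      intro q
      have := Real.mul_self_sqrt (hw0 q)
      calc Real.sqrt (w q) * v q * (Real.sqrt (w q) * s q)
          = (Real.sqrt (w q) * Real.sqrt (w q)) * v q * s q := by ring
        _ = w q * v q * s q := by rw [this]
    have e2 : ∀ q, (Real.sqrt (w q) * v q) ^ 2 = w q := by
      intro q
      have := Real.mul_self_sqrt (hw0 q)
      calc (Real.sqrt (w q) * v q) ^ 2 = (Real.sqrt (w q) * Real.sqrt (w q)) * (v q * v q) := by ring
        _ = w q := by rw [this, hv2, mul_one]
    have e3 : ∀ q, (Real.sqrt (w q) * s q) ^ 2 = w q * (s q * s q) := by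
      intro q
      have := Real.mul_self_sqrt (hw0 q)
      calc (Real.sqrt (w q) * s q) ^ 2 = (Real.sqrt (w q) * Real.sqrt (w q)) * (s q * s q) := by ring
        _ = w q * (s q * s q) := by rw [this]
    simp_rw [e1, e2, e3] at this
    exact this
  -- second moment
  have hsecond : ∑ q, w q * (s q * s q) = ∑ q, w q * codim (ρ q) := by
    have h1 : ∀ q, s q * s q = ∑ i, ∑ j, sig (ρ q) i * sig (ρ q) j := by
      intro q
      simp only [hs]
      rw [Finset.sum_mul_sum]
    have h2 : ∑ q, w q * (s q * s q) = ∑ i, ∑ j, ∑ q, w q * (sig (ρ q) i * sig (ρ q) j) := by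
      simp_rw [h1, Finset.mul_sum]
      rw [Finset.sum_comm]
      apply Finset.sum_congr rfl
      intro i _
      rw [Finset.sum_comm]
    have h3 : ∀ i j, i ≠ j → ∑ q, w q * (sig (ρ q) i * sig (ρ q) j) = 0 := by
      intro i j hij
      have := hS {i, j}
      simp only [Finset.prod_pair hij] at this
      simpa using this
    rw [h2]
    have h4 : ∀ i, ∑ j, ∑ q, w q * (sig (ρ q) i * sig (ρ q) j)
        = ∑ q, w q * (sig (ρ q) i * sig (ρ q) i) := by
      intro i
      rw [Finset.sum_eq_single i]
      · intro j _ hj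
        exact h3 i j (Ne.symm hj)
      · simp
    simp_rw [h4]
    rw [Finset.sum_comm]
    apply Finset.sum_congr rfl
    intro q _
    rw [← Finset.mul_sum, sum_sig_sq]
  refine ⟨hsum1, ?_⟩
  rw [hW]
  calc (∑ q, w q * v q * s q) ^ 2 ≤ (∑ q, w q) * (∑ q, w q * (s q * s q)) := hCS
    _ = ∑ q, w q * codim (ρ q) := by rw [hsum1, one_mul, hsecond]

/-- Fourier coefficients of a function that is constant on the cubes of a fractional partition. -/
lemma fourier_eq_sum {Q : Type*} [Fintype Q] (f : (ι → ℤˣ) → ℤˣ) (ρ : Q → ι → Option ℤˣ)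
    (α : Q → ℝ)
    (hmono : ∀ q x y, InCube (ρ q) x → InCube (ρ q) y → f x = f y)
    (hcover : ∀ x, ∑ q, α q * ind (ρ q) x = 1) (S : Finset ι) :
    fourier f S = ∑ q, α q * (1 / 2) ^ codim (ρ q) * rv (f (basePoint (ρ q))) * ∏ i ∈ S, sig (ρ q) i := by
  classical
  have hf : ∀ x, rv (f x) = ∑ q, α q * (ind (ρ q) x * rv (f (basePoint (ρ q)))) := by
    intro x
    have : ∑ q, α q * (ind (ρ q) x * rv (f (basePoint (ρ q)))) = ∑ q, (α q * ind (ρ q) x) * rv (f x) := by
      apply Finset.sum_congr rfl
      intro q _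
      by_cases hx : InCube (ρ q) x
      · have : f (basePoint (ρ q)) = f x := hmono q _ _ (basePoint_mem _) hx
        rw [this]; ring
      · simp [ind, hx]
    rw [this, ← Finset.sum_mul, hcover, one_mul]
  unfold fourier
  have : (fun x : ι → ℤˣ => rv (f x) * chi S x)
      = fun x => ∑ q, (α q * rv (f (basePoint (ρ q)))) * (ind (ρ q) x * chi S x) := by
    funext x
    rw [hf x, Finset.sum_mul]
    apply Finset.sum_congr rfl
    intro q _; ring
  rw [this, expect_sum]
  apply Finset.sum_congr rfl
  intro q _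
  rw [expect_const_mul, expect_ind_chi]
  ring

/-- The degree is at most the largest codimension. -/
lemma deg_le_of_codim_le {Q : Type*} [Fintype Q] (f : (ι → ℤˣ) → ℤˣ) (ρ : Q → ι → Option ℤˣ)
    (α : Q → ℝ)
    (hmono : ∀ q x y, InCube (ρ q) x → InCube (ρ q) y → f x = f y)
    (hcover : ∀ x, ∑ q, α q * ind (ρ q) x = 1) (d : ℕ) (hd : ∀ q, codim (ρ q) ≤ d) :
    deg f ≤ d := by
  rw [deg_le_iff]
  intro S hS
  rw [fourier_eq_sum f ρ α hmono hcover]
  apply Finset.sum_eq_zero
  intro q _
  have : ∃ i ∈ S, ρ q i = none := by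
    by_contra hcon
    push Not at hcon
    have hsub : S ⊆ univ.filter (fun i => (ρ q i).isSome) := by
      intro i hi
      simp only [Finset.mem_filter, Finset.mem_univ, true_and]
      exact Option.isSome_iff_ne_none.mpr (hcon i hi)
    have := Finset.card_le_card hsub
    have h2 := hd q
    unfold codim at h2
    omega
  obtain ⟨i, hi, hnone⟩ := this
  rw [Finset.prod_eq_zero hi, mul_zero]
  simp [sig, hnone]

end

end Vale.Agent.P047
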