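import Vale.Agent.P047.Compose

/-!
# Reindexing and the odd extension of a Boolean function.
-/

namespace Vale.Agent.P047

open Finset

noncomputable section

variable {ι κ : Type*} [Fintype ι] [DecidableEq ι] [Fintype κ] [DecidableEq κ]

/-- Renaming the variables along a bijection. -/
def reindex (e : ι ≃ κ) (f : (ι → ℤˣ) → ℤˣ) : (κ → ℤˣ) → ℤˣ := fun y => f (fun i => y (e i))

lemma fourier_reindex (e : ι ≃ κ) (f : (ι → ℤˣ) → ℤˣ) (T : Finset κ) :
    fourier (reindex e f) T = fourier f (T.map e.symm.toEmbedding) := by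
  unfold fourier expect reindex
  rw [Fintype.card_congr e]
  congr 1
  have := (Equiv.arrowCongr e (Equiv.refl ℤˣ)).sum_comp
    (fun y : κ → ℤˣ => rv (f (fun i => y (e i))) * chi T y)
  rw [← this]
  apply Finset.sum_congr rfl
  intro x _
  have h1 : (fun i => (Equiv.arrowCongr e (Equiv.refl ℤˣ)) x (e i)) = x := by
    funext i; simp [Equiv.arrowCongr]
  rw [h1]
  congr 1
  unfold chi
  rw [Finset.prod_map]
  apply Finset.prod_congr rfl
  intro k _
  simp [Equiv.arrowCongr]

lemma fourier_reindex_empty (e : ι ≃ κ) (f : (ι → ℤˣ) → ℤˣ) :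
    fourier (reindex e f) ∅ = fourier f ∅ := by
  rw [fourier_reindex]; simp

lemma levelOne_reindex (e : ι ≃ κ) (f : (ι → ℤˣ) → ℤˣ) :
    levelOne (reindex e f) = levelOne f := by
  unfold levelOne
  rw [← e.symm.sum_comp (fun i => fourier f {i})]
  apply Finset.sum_congr rfl
  intro k _
  rw [fourier_reindex]; simp

lemma deg_reindex_le (e : ι ≃ κ) (f : (ι → ℤˣ) → ℤˣ) : deg (reindex e f) ≤ deg f := by
  rw [deg_le_iff]
  intro T hT
  rw [fourier_reindex]
  apply fourier_eq_zero_of_deg_lt
  simpa using hT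

/-- The odd extension `(x, y) ↦ (s y) f((s y) x)` of `f`, with one extra variable `y` (index `none`)
and a fixed sign `s`. -/
def oddize (s : ℤˣ) (f : (ι → ℤˣ) → ℤˣ) : (Option ι → ℤˣ) → ℤˣ :=
  fun z => (s * z none) * f (fun i => (s * z none) * z (some i))

/-- glue a value at `none` and a point of the cube -/
def consOpt (y : ℤˣ) (x : ι → ℤˣ) : Option ι → ℤˣ := fun a => Option.elim a y x

lemma sum_option_cube (G : (Option ι → ℤˣ) → ℝ) :
    ∑ z, G z = ∑ y : ℤˣ, ∑ x : ι → ℤˣ, G (consOpt y x) := by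
  rw [← Fintype.sum_prod_type']
  have := (Equiv.piOptionEquivProd (β := fun _ : Option ι => ℤˣ)).symm.sum_comp G
  rw [← this]
  apply Finset.sum_congr rfl
  intro p _
  congr 1
  funext a
  cases a <;> rfl

lemma chi_consOpt (T : Finset (Option ι)) (y : ℤˣ) (x : ι → ℤˣ) :
    chi T (consOpt y x) = (if none ∈ T then rv y else 1) * chi T.eraseNone x := by
  rw [chi_eq_prod_ite, chi_eq_prod_ite, Fintype.prod_option]
  simp [consOpt, Finset.mem_eraseNone]

omit [Fintype ι] [DecidableEq ι] in
lemma chi_smul (S : Finset ι) (u : ℤˣ) (x : ι → ℤˣ) :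
    chi S (fun i => u * x i) = rv u ^ S.card * chi S x := by
  unfold chi
  simp_rw [rv_mul]
  rw [Finset.prod_mul_distrib, Finset.prod_const]

lemma sum_scale (u : ℤˣ) (G : (ι → ℤˣ) → ℝ) :
    ∑ x : ι → ℤˣ, G (fun i => u * x i) = ∑ x : ι → ℤˣ, G x := by
  have := Equiv.sum_comp (Equiv.mulLeft (fun _ : ι => u)) G
  rw [← this]
  rfl

lemma fourier_oddize (s : ℤˣ) (f : (ι → ℤˣ) → ℤˣ) (T : Finset (Option ι)) :
    fourier (oddize s f) T =
      ((∑ y : ℤˣ, rv (s * y) ^ (1 + T.eraseNone.card) * (if none ∈ T then rv y else 1)) / 2)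
        * fourier f T.eraseNone := by
  unfold fourier expect
  rw [sum_option_cube, Fintype.card_option, pow_succ]
  have key : ∀ y : ℤˣ, ∑ x : ι → ℤˣ, rv (oddize s f (consOpt y x)) * chi T (consOpt y x)
      = rv (s * y) ^ (1 + T.eraseNone.card) * (if none ∈ T then rv y else 1)
        * ∑ x : ι → ℤˣ, rv (f x) * chi T.eraseNone x := by
    intro y
    have h1 : ∀ x : ι → ℤˣ, rv (oddize s f (consOpt y x)) * chi T (consOpt y x)
        = (fun x' : ι → ℤˣ => rv (s * y) ^ (1 + T.eraseNone.card) * (if none ∈ T then rv y else 1)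
            * (rv (f x') * chi T.eraseNone x')) (fun i => (s * y) * x i) := by
      intro x
      simp only [oddize, consOpt, Option.elim]
      rw [chi_consOpt, chi_smul, rv_mul (s * y)]
      have h2 : rv (s * y) ^ (1 + T.eraseNone.card) * rv (s * y) ^ T.eraseNone.card = rv (s * y) := by
        rw [← pow_add]
        have : 1 + T.eraseNone.card + T.eraseNone.card = 2 * T.eraseNone.card + 1 := by ring
        rw [this, pow_succ, pow_mul, pow_two, rv_mul_self, one_pow, one_mul]
      calc rv (s * y) * rv (f fun i => s * y * x i) * ((if none ∈ T then rv y else 1) * chi T.eraseNone x)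
          = (rv (s * y)) * (rv (f fun i => s * y * x i) * ((if none ∈ T then rv y else 1) * chi T.eraseNone x)) := by ring
        _ = (rv (s * y) ^ (1 + T.eraseNone.card) * rv (s * y) ^ T.eraseNone.card) * (rv (f fun i => s * y * x i) * ((if none ∈ T then rv y else 1) * chi T.eraseNone x)) := by rw [h2]
        _ = _ := by ring
    rw [Finset.sum_congr rfl (fun x _ => h1 x),
      sum_scale (s * y) (fun x' : ι → ℤˣ => rv (s * y) ^ (1 + T.eraseNone.card) *
        (if none ∈ T then rv y else 1) * (rv (f x') * chi T.eraseNone x')), Finset.mul_sum]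
  simp_rw [key]
  rw [← Finset.sum_mul]
  field_simp

lemma fourier_oddize_empty (s : ℤˣ) (f : (ι → ℤˣ) → ℤˣ) : fourier (oddize s f) ∅ = 0 := by
  rw [fourier_oddize, sum_units]
  rcases Int.units_eq_one_or s with h | h <;> simp [h]

lemma fourier_oddize_none (s : ℤˣ) (f : (ι → ℤˣ) → ℤˣ) :
    fourier (oddize s f) {none} = rv s * fourier f ∅ := by
  rw [fourier_oddize, sum_units]
  rcases Int.units_eq_one_or s with h | h <;> simp [h]

lemma fourier_oddize_some (s : ℤˣ) (f : (ι → ℤˣ) → ℤˣ) (i : ι) :
    fourier (oddize s f) {some i} = fourier f {i} := by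
  rw [fourier_oddize, sum_units]
  have h1 : ({some i} : Finset (Option ι)).eraseNone = {i} := by
    ext j; simp [Finset.mem_eraseNone, eq_comm]
  rw [h1]
  rcases Int.units_eq_one_or s with h | h <;> simp [h]

lemma levelOne_oddize (s : ℤˣ) (f : (ι → ℤˣ) → ℤˣ) :
    levelOne (oddize s f) = levelOne f + rv s * fourier f ∅ := by
  unfold levelOne
  rw [Fintype.sum_option, fourier_oddize_none]
  simp_rw [fourier_oddize_some]
  ring

/-- A nonzero coefficient of the odd extension sits on a set of odd size. -/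
lemma fourier_oddize_even (s : ℤˣ) (f : (ι → ℤˣ) → ℤˣ) (T : Finset (Option ι)) (hT : Even T.card) :
    fourier (oddize s f) T = 0 := by
  rw [fourier_oddize, sum_units]
  by_cases hn : none ∈ T
  · have hc : T.eraseNone.card = T.card - 1 := Finset.card_eraseNone_of_mem hn
    have hpos : 0 < T.card := Finset.card_pos.mpr ⟨none, hn⟩
    have hodd : Even (1 + T.eraseNone.card) := by
      rw [hc]
      have : 1 + (T.card - 1) = T.card := by omega
      rw [this]; exact hT
    rcases Int.units_eq_one_or s with h | h <;> simp [h, hn, hodd.neg_one_pow]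
  · have hc : T.eraseNone.card = T.card := Finset.card_eraseNone_of_not_mem hn
    have hodd : Odd (1 + T.eraseNone.card) := by
      rw [hc, add_comm]; exact hT.add_one
    rcases Int.units_eq_one_or s with h | h <;> simp [h, hn, hodd.neg_one_pow]

lemma deg_oddize_le (s : ℤˣ) (f : (ι → ℤˣ) → ℤˣ) : deg (oddize s f) ≤ deg f + 1 := by
  rw [deg_le_iff]
  intro T hT
  rw [fourier_oddize]
  have : deg f < T.eraseNone.card := by
    by_cases hn : none ∈ T
    · rw [Finset.card_eraseNone_of_mem hn]; omega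
    · rw [Finset.card_eraseNone_of_not_mem hn]; omega
  rw [fourier_eq_zero_of_deg_lt f _ this, mul_zero]

lemma deg_oddize_le_of_odd (s : ℤˣ) (f : (ι → ℤˣ) → ℤˣ) (hodd : Odd (deg f)) :
    deg (oddize s f) ≤ deg f := by
  rw [deg_le_iff]
  intro T hT
  by_cases hc : T.card = deg f + 1
  · apply fourier_oddize_even
    rw [hc]; exact hodd.add_one
  · have h2 : deg f + 1 < T.card := by omega
    exact fourier_eq_zero_of_deg_lt _ _ (lt_of_le_of_lt (deg_oddize_le s f) h2)

end

end Vale.Agent.P047
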