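import Vale.Agent.P047.Sharp
import Vale.Agent.P047.Oddize

/-!
# Lower bounds: the level-one sum can exceed that of majority in every degree `d ≥ 4`.
-/

namespace Vale.Agent.P047

open Finset Polynomial

noncomputable section

variable {ι : Type*} [Fintype ι] [DecidableEq ι]

/-- query the extra variable `none`, then apply `g` (value `1`) or `h` (value `-1`). -/
def mux (g h : (ι → ℤˣ) → ℤˣ) : (Option ι → ℤˣ) → ℤˣ :=
  fun z => if z none = 1 then g (fun i => z (some i)) else h (fun i => z (some i))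

lemma fourier_mux (g h : (ι → ℤˣ) → ℤˣ) (T : Finset (Option ι)) :
    fourier (mux g h) T =
      (fourier g T.eraseNone + (if none ∈ T then -1 else 1) * fourier h T.eraseNone) / 2 := by
  unfold fourier expect
  rw [sum_option_cube, sum_units, Fintype.card_option, pow_succ]
  have h1 : ∀ x : ι → ℤˣ, rv (mux g h (consOpt 1 x)) * chi T (consOpt 1 x)
      = rv (g x) * chi T.eraseNone x := by
    intro x
    rw [chi_consOpt]
    simp [mux, consOpt]
  have h2 : ∀ x : ι → ℤˣ, rv (mux g h (consOpt (-1) x)) * chi T (consOpt (-1) x)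
      = (if none ∈ T then -1 else 1) * (rv (h x) * chi T.eraseNone x) := by
    intro x
    rw [chi_consOpt]
    have : ((-1 : ℤˣ) = 1) = False := by
      simp only [eq_iff_iff, iff_false]; decide
    simp only [mux, consOpt, Option.elim, this, if_false, rv_neg_one]
    ring
  simp_rw [h1, h2]
  rw [← Finset.mul_sum]
  field_simp

lemma fourier_mux_empty (g h : (ι → ℤˣ) → ℤˣ) :
    fourier (mux g h) ∅ = (fourier g ∅ + fourier h ∅) / 2 := by
  rw [fourier_mux]
  simp

lemma fourier_mux_none (g h : (ι → ℤˣ) → ℤˣ) :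
    fourier (mux g h) {none} = (fourier g ∅ - fourier h ∅) / 2 := by
  rw [fourier_mux]
  simp
  ring

lemma fourier_mux_some (g h : (ι → ℤˣ) → ℤˣ) (i : ι) :
    fourier (mux g h) {some i} = (fourier g {i} + fourier h {i}) / 2 := by
  rw [fourier_mux]
  have h1 : ({some i} : Finset (Option ι)).eraseNone = {i} := by
    ext j; simp [Finset.mem_eraseNone, eq_comm]
  rw [h1]
  simp

lemma levelOne_mux (g h : (ι → ℤˣ) → ℤˣ) :
    levelOne (mux g h) = (levelOne g + levelOne h) / 2 + (fourier g ∅ - fourier h ∅) / 2 := by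
  unfold levelOne
  rw [Fintype.sum_option, fourier_mux_none]
  simp_rw [fourier_mux_some]
  rw [← Finset.sum_div, Finset.sum_add_distrib]
  ring

lemma deg_mux_le (g h : (ι → ℤˣ) → ℤˣ) (r : ℕ) (hg : deg g ≤ r) (hh : deg h ≤ r) :
    deg (mux g h) ≤ r + 1 := by
  rw [deg_le_iff]
  intro T hT
  rw [fourier_mux]
  have : r < T.eraseNone.card := by
    by_cases hn : none ∈ T
    · rw [Finset.card_eraseNone_of_mem hn]; omega
    · rw [Finset.card_eraseNone_of_not_mem hn]; omega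
  rw [fourier_eq_zero_of_deg_lt g _ (lt_of_le_of_lt hg this),
    fourier_eq_zero_of_deg_lt h _ (lt_of_le_of_lt hh this)]
  simp

lemma deg_pad_le (g : (ι → ℤˣ) → ℤˣ) : deg (mux g g) ≤ deg g := by
  rw [deg_le_iff]
  intro T hT
  rw [fourier_mux]
  by_cases hn : none ∈ T
  · simp [hn]
  · have : deg g < T.eraseNone.card := by
      rw [Finset.card_eraseNone_of_not_mem hn]; exact hT
    rw [fourier_eq_zero_of_deg_lt g _ this]
    simp

/-- adding dummy variables -/
lemma pad_fin {n : ℕ} (g : (Fin n → ℤˣ) → ℤˣ) (k : ℕ) :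
    ∃ g' : (Fin (n + k) → ℤˣ) → ℤˣ,
      deg g' ≤ deg g ∧ levelOne g' = levelOne g ∧ fourier g' ∅ = fourier g ∅ := by
  induction k with
  | zero => exact ⟨g, le_refl _, rfl, rfl⟩
  | succ k ih =>
    obtain ⟨g', h1, h2, h3⟩ := ih
    refine ⟨reindex (finSuccEquiv (n + k)).symm (mux g' g'), ?_, ?_, ?_⟩
    · exact (deg_reindex_le _ _).trans ((deg_pad_le g').trans h1)
    · rw [levelOne_reindex, levelOne_mux, h2]; ring
    · rw [fourier_reindex_empty, fourier_mux_empty, h3]; ring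

/-- `Att r s v`: the value `v = W(g) + s E g` is attained by a Boolean `g` of degree at most `r`. -/
def Att (r : ℕ) (s : ℤ) (v : ℝ) : Prop :=
  ∃ (n : ℕ) (g : (Fin n → ℤˣ) → ℤˣ), deg g ≤ r ∧ levelOne g + s * fourier g ∅ = v

lemma Att.mux {r : ℕ} {s : ℤ} {v₁ v₂ : ℝ} (h₁ : Att r (s + 1) v₁) (h₂ : Att r (s - 1) v₂) :
    Att (r + 1) s ((v₁ + v₂) / 2) := by
  obtain ⟨n₁, g₁, hd₁, hv₁⟩ := h₁
  obtain ⟨n₂, g₂, hd₂, hv₂⟩ := h₂
  obtain ⟨a, ha1, ha2, ha3⟩ := pad_fin g₁ n₂
  obtain ⟨b, hb1, hb2, hb3⟩ := pad_fin g₂ n₁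
  let b' := reindex (finCongr (Nat.add_comm n₂ n₁)) b
  have hb1' : deg b' ≤ r := (deg_reindex_le _ _).trans (hb1.trans hd₂)
  have hb2' : levelOne b' = levelOne g₂ := by rw [levelOne_reindex, hb2]
  have hb3' : fourier b' ∅ = fourier g₂ ∅ := by rw [fourier_reindex_empty, hb3]
  refine ⟨n₁ + n₂ + 1, reindex (finSuccEquiv (n₁ + n₂)).symm (Vale.Agent.P047.mux a b'), ?_, ?_⟩
  · exact (deg_reindex_le _ _).trans (deg_mux_le a b' r (ha1.trans hd₁) hb1')
  · rw [levelOne_reindex, fourier_reindex_empty, levelOne_mux, fourier_mux_empty, ha2, ha3, hb2',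
      hb3', ← hv₁, ← hv₂]
    push_cast
    ring

lemma Att.const (s : ℤ) : Att 0 s |(s : ℝ)| := by
  by_cases hs : 0 ≤ s
  · refine ⟨0, fun _ => 1, ?_, ?_⟩
    · rw [deg_le_iff]
      intro S hS
      have : S = ∅ := Finset.eq_empty_of_isEmpty S
      simp [this] at hS
    · have hs' : (0 : ℝ) ≤ s := by exact_mod_cast hs
      simp [levelOne, fourier, expect, chi, abs_of_nonneg hs']
  · refine ⟨0, fun _ => -1, ?_, ?_⟩
    · rw [deg_le_iff]
      intro S hS
      have : S = ∅ := Finset.eq_empty_of_isEmpty S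
      simp [this] at hS
    · have hs' : (s : ℝ) ≤ 0 := by
        have : s ≤ 0 := by omega
        exact_mod_cast this
      simp [levelOne, fourier, expect, chi, abs_of_nonpos hs']

/-- iterated averaging over a `±1` step -/
def Up : ℕ → (ℤ → ℝ) → ℤ → ℝ
  | 0, U, s => U s
  | (m + 1), U, s => (Up m U (s + 1) + Up m U (s - 1)) / 2

lemma Att.up {r : ℕ} {U : ℤ → ℝ} (h : ∀ s, Att r s (U s)) (m : ℕ) :
    ∀ s, Att (r + m) s (Up m U s) := by
  induction m with
  | zero => exact h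
  | succ m ih =>
    intro s
    exact Att.mux (ih (s + 1)) (ih (s - 1))

lemma choose_sum_succ (m : ℕ) (g : ℕ → ℝ) :
    ∑ j ∈ range (m + 2), ((m + 1).choose j : ℝ) * g j
      = ∑ j ∈ range (m + 1), (m.choose j : ℝ) * g j
        + ∑ j ∈ range (m + 1), (m.choose j : ℝ) * g (j + 1) := by
  rw [Finset.sum_range_succ' _ (m + 1)]
  simp_rw [Nat.choose_succ_succ, Nat.cast_add, add_mul]
  rw [Finset.sum_add_distrib]
  rw [Finset.sum_range_succ' (fun j => (m.choose j : ℝ) * g j) m]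
  rw [Finset.sum_range_succ (fun j => ((m.choose (j + 1) : ℕ) : ℝ) * g (j + 1)) m]
  simp
  ring

lemma Up_formula (m : ℕ) (U : ℤ → ℝ) :
    ∀ s : ℤ, Up m U s = (∑ j ∈ range (m + 1), (m.choose j : ℝ) * U (s + m - 2 * j)) / 2 ^ m := by
  induction m with
  | zero => intro s; simp [Up]
  | succ m ih =>
    intro s
    rw [Up, ih, ih, choose_sum_succ m (fun j => U (s + ((m + 1 : ℕ) : ℤ) - 2 * (j : ℤ)))]
    have e1 : ∀ j : ℕ, s + 1 + (m : ℤ) - 2 * (j : ℤ) = s + ((m + 1 : ℕ) : ℤ) - 2 * (j : ℤ) := by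
      intro j; push_cast; ring
    have e2 : ∀ j : ℕ, s - 1 + (m : ℤ) - 2 * (j : ℤ)
        = s + ((m + 1 : ℕ) : ℤ) - 2 * ((j + 1 : ℕ) : ℤ) := by
      intro j; push_cast; ring
    simp_rw [e1, e2]
    rw [pow_succ]
    field_simp

/-- the mean when the indicator of `{f = -ε}` is a combination of subcube indicators. -/
lemma fourier_oneSided_empty {Q : Type*} [Fintype Q] (f : (ι → ℤˣ) → ℤˣ) (ε : ℤˣ)
    (ρ : Q → ι → Option ℤˣ) (α : Q → ℝ)
    (hcover : ∀ x, ∑ q, α q * ind (ρ q) x = (1 - rv ε * rv (f x)) / 2) :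
    fourier f ∅ = rv ε * (1 - 2 * ∑ q, α q * (1 / 2) ^ codim (ρ q)) := by
  have hf : ∀ x, rv (f x) = rv ε * (1 - 2 * ∑ q, α q * ind (ρ q) x) := by
    intro x
    rw [hcover x]
    have := rv_mul_self ε
    linear_combination (-(rv (f x))) * this
  unfold fourier
  have h1 : (fun x : ι → ℤˣ => rv (f x) * chi ∅ x)
      = fun x => rv ε * chi ∅ x + ∑ q, (-2 * rv ε * α q) * (ind (ρ q) x * chi ∅ x) := by
    funext x
    rw [hf x]
    have : ∑ q, (-2 * rv ε * α q) * (ind (ρ q) x * chi ∅ x)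
        = -2 * rv ε * (∑ q, α q * ind (ρ q) x) * chi ∅ x := by
      rw [Finset.mul_sum, Finset.sum_mul]
      apply Finset.sum_congr rfl
      intro q _; ring
    rw [this]; ring
  rw [h1, expect_add, expect_const_mul, expect_chi, if_pos rfl, expect_sum]
  have h2 : ∀ q, expect (fun x : ι → ℤˣ => (-2 * rv ε * α q) * (ind (ρ q) x * chi ∅ x))
      = -2 * rv ε * (α q * (1 / 2) ^ codim (ρ q)) := by
    intro q
    rw [expect_const_mul, expect_ind_chi]
    simp
    ring
  simp_rw [h2]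
  rw [← Finset.mul_sum]
  ring

/-- the function equal to `-1` exactly on the union of the given subcubes -/
def unionFun {Q : Type*} (ρ : Q → ι → Option ℤˣ) : (ι → ℤˣ) → ℤˣ := by
  classical exact fun x => if ∃ q, InCube (ρ q) x then -1 else 1

omit [Fintype ι] [DecidableEq ι] in
lemma cover_of_conflict {Q : Type*} [Fintype Q] (ρ : Q → ι → Option ℤˣ)
    (hconf : ∀ q q', q ≠ q' → ∃ i, (ρ q i).isSome ∧ (ρ q' i).isSome ∧ ρ q i ≠ ρ q' i) :
    ∀ x, ∑ q, (1 : ℝ) * ind (ρ q) x = (1 - rv 1 * rv (unionFun ρ x)) / 2 := by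
  classical
  intro x
  by_cases h : ∃ q, InCube (ρ q) x
  · obtain ⟨q0, hq0⟩ := h
    have hf : unionFun ρ x = -1 := by
      unfold unionFun
      rw [if_pos ⟨q0, hq0⟩]
    rw [hf, Finset.sum_eq_single q0]
    · unfold ind
      rw [if_pos hq0]
      simp
    · intro q _ hq
      unfold ind
      rw [if_neg, mul_zero]
      intro hin
      obtain ⟨i, h1, h2, h3⟩ := hconf q q0 hq
      obtain ⟨s, hs⟩ := Option.isSome_iff_exists.mp h1
      obtain ⟨t, ht⟩ := Option.isSome_iff_exists.mp h2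
      apply h3
      rw [hs, ht, ← hin i s hs, ← hq0 i t ht]
    · intro hq; exact absurd (Finset.mem_univ q0) hq
  · have hf : unionFun ρ x = 1 := by
      unfold unionFun
      rw [if_neg h]
    rw [hf, Finset.sum_eq_zero]
    · simp
    · intro q _
      unfold ind
      rw [if_neg, mul_zero]
      intro hin
      exact h ⟨q, hin⟩

lemma unionFun_facts {Q : Type*} [Fintype Q] (ρ : Q → ι → Option ℤˣ)
    (hconf : ∀ q q', q ≠ q' → ∃ i, (ρ q i).isSome ∧ (ρ q' i).isSome ∧ ρ q i ≠ ρ q' i)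
    (a b : ℕ) (ha : ∀ q, npos (ρ q) = a) (hb : ∀ q, nneg (ρ q) = b) :
    deg (unionFun ρ) ≤ a + b ∧
    levelOne (unionFun ρ) = 2 * Fintype.card Q * (1 / 2) ^ (a + b) * ((b : ℝ) - a) ∧
    fourier (unionFun ρ) ∅ = 1 - 2 * Fintype.card Q * (1 / 2) ^ (a + b) := by
  have hc : ∀ q, codim (ρ q) = a + b := by
    intro q; rw [codim_eq, ha, hb]
  have hcov := cover_of_conflict ρ hconf
  refine ⟨?_, ?_, ?_⟩
  · exact deg_le_oneSided _ 1 ρ (fun _ => 1) hcov (a + b) (fun q => (hc q).le)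
  · unfold levelOne
    have h1 : ∀ i : ι, fourier (unionFun ρ) {i}
        = -2 * ∑ q, (1 / 2 : ℝ) ^ (a + b) * sig (ρ q) i := by
      intro i
      rw [fourier_oneSided _ 1 ρ (fun _ => 1) hcov {i} (Finset.singleton_ne_empty i)]
      simp [hc]
    simp_rw [h1]
    rw [← Finset.mul_sum, Finset.sum_comm]
    simp_rw [← Finset.mul_sum, sum_sig, ha, hb]
    simp
    ring
  · rw [fourier_oneSided_empty _ 1 ρ (fun _ => 1) hcov]
    simp [hc]
    ring

/-- the seven subcubes `x_j = 1, x_{j+1} = x_{j+2} = x_{j+3} = -1` (indices mod 7) -/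
def rho7 : Fin 7 → Fin 7 → Option ℤˣ :=
  fun j i => if i = j then some 1 else if (i - j).val ≤ 3 then some (-1) else none

/-- the nine subcubes `x_j = 1, x_{j+1} = ... = x_{j+4} = -1` (indices mod 9) -/
def rho9 : Fin 9 → Fin 9 → Option ℤˣ :=
  fun j i => if i = j then some 1 else if (i - j).val ≤ 4 then some (-1) else none

lemma rho7_conf : ∀ q q' : Fin 7, q ≠ q' →
    ∃ i, (rho7 q i).isSome ∧ (rho7 q' i).isSome ∧ rho7 q i ≠ rho7 q' i := by
  decide

lemma rho7_npos : ∀ q, npos (rho7 q) = 1 := by decide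

lemma rho7_nneg : ∀ q, nneg (rho7 q) = 3 := by decide

lemma rho9_conf : ∀ q q' : Fin 9, q ≠ q' →
    ∃ i, (rho9 q i).isSome ∧ (rho9 q' i).isSome ∧ rho9 q i ≠ rho9 q' i := by
  decide

lemma rho9_npos : ∀ q, npos (rho9 q) = 1 := by decide

lemma rho9_nneg : ∀ q, nneg (rho9 q) = 4 := by decide

lemma deg_oddize_le_of_le (s : ℤˣ) (f : (ι → ℤˣ) → ℤˣ) (D : ℕ) (hodd : Odd D) (h : deg f ≤ D) :
    deg (oddize s f) ≤ D := by
  rw [deg_le_iff]
  intro T hT
  by_cases hc : T.card = D + 1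
  · apply fourier_oddize_even
    rw [hc]; exact hodd.add_one
  · have h2 : deg f + 1 < T.card := by omega
    exact fourier_eq_zero_of_deg_lt _ _ (lt_of_le_of_lt (deg_oddize_le s f) h2)

lemma att4 : Att 4 0 (7 / 4) := by
  obtain ⟨h1, h2, -⟩ := unionFun_facts rho7 rho7_conf 1 3 rho7_npos rho7_nneg
  refine ⟨7, unionFun rho7, h1, ?_⟩
  rw [h2]
  simp
  norm_num

lemma att5 : Att 5 0 (17 / 8) := by
  obtain ⟨h1, h2, h3⟩ := unionFun_facts rho9 rho9_conf 1 4 rho9_npos rho9_nneg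
  refine ⟨10, reindex (finSuccEquiv 9).symm (oddize 1 (unionFun rho9)), ?_, ?_⟩
  · exact (deg_reindex_le _ _).trans (deg_oddize_le_of_le 1 _ 5 (by decide) h1)
  · rw [levelOne_reindex, levelOne_oddize, h2, h3]
    simp
    norm_num

/-- indicator of `0` -/
def delta0 : ℤ → ℝ := fun s => if s = 0 then 1 else 0

/-- absolute value on the integers, real valued -/
def absZ : ℤ → ℝ := fun s => |(s : ℝ)|

lemma Up_add (m : ℕ) (U V : ℤ → ℝ) (c : ℝ) :
    ∀ s, Up m (fun t => U t + c * V t) s = Up m U s + c * Up m V s := by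
  induction m with
  | zero => intro s; rfl
  | succ m ih =>
    intro s
    rw [Up, Up, Up, ih, ih]
    ring

lemma Up_Up (m r : ℕ) (U : ℤ → ℝ) : ∀ s, Up m (Up r U) s = Up (r + m) U s := by
  induction m with
  | zero => intro s; rfl
  | succ m ih =>
    intro s
    rw [Up, ih, ih]
    rfl

lemma Up_abs (d : ℕ) : Up d absZ 0 = Bmaj d := by
  rw [Up_formula, Bmaj_eq]
  congr 1
  unfold absFun absZ
  apply Finset.sum_congr rfl
  intro j _
  rw [Polynomial.coeff_one_add_X_pow, abs_sub_comm]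
  push_cast
  congr 2
  ring

lemma Up_delta (k : ℕ) : Up (2 * k) delta0 0 = (Nat.centralBinom k : ℝ) / 4 ^ k := by
  rw [Up_formula, Finset.sum_eq_single k]
  · have h1 : (0 : ℤ) + ((2 * k : ℕ) : ℤ) - 2 * (k : ℤ) = 0 := by push_cast; ring
    have h2 : (2 : ℝ) ^ (2 * k) = 4 ^ k := by rw [pow_mul]; norm_num
    rw [h1, h2, Nat.centralBinom_eq_two_mul_choose]
    simp [delta0]
  · intro j _ hj
    have h1 : (0 : ℤ) + ((2 * k : ℕ) : ℤ) - 2 * (j : ℤ) ≠ 0 := by
      push_cast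
      omega
    rw [delta0, if_neg h1, mul_zero]
  · intro h
    exfalso
    apply h
    rw [Finset.mem_range]
    omega

lemma att_base (r : ℕ) (h : Att r 0 (Up r absZ 0 + 1 / 4)) :
    ∀ s, Att r s (Up r absZ s + (1 / 4) * delta0 s) := by
  intro s
  by_cases hs : s = 0
  · subst hs
    simpa [delta0] using h
  · have := Att.up (U := absZ) Att.const r s
    rw [zero_add] at this
    simpa [delta0, hs] using this

lemma att_main (r : ℕ) (h : Att r 0 (Up r absZ 0 + 1 / 4)) (k : ℕ) :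
    Att (r + 2 * k) 0 (Bmaj (r + 2 * k) + (Nat.centralBinom k : ℝ) / 4 ^ (k + 1)) := by
  have h1 := Att.up (att_base r h) (2 * k) 0
  rw [Up_add, Up_Up, Up_abs, Up_delta] at h1
  have : (1 / 4 : ℝ) * ((Nat.centralBinom k : ℝ) / 4 ^ k) = (Nat.centralBinom k : ℝ) / 4 ^ (k + 1) := by
    rw [pow_succ]; field_simp
  rw [this] at h1
  exact h1

lemma Up4 : Up 4 absZ 0 = 3 / 2 := by
  simp only [Up, absZ]
  norm_num

lemma Up5 : Up 5 absZ 0 = 15 / 8 := by
  simp only [Up, absZ]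
  norm_num

/-- In every degree `d ≥ 4` the level-one sum of majority is beaten. -/
theorem beats_majority (d : ℕ) (hd : 4 ≤ d) :
    ∃ (n : ℕ) (f : (Fin n → ℤˣ) → ℤˣ), deg f ≤ d ∧
      levelOne f = Bmaj d + (Nat.centralBinom ((d - 4) / 2) : ℝ) / 4 ^ ((d - 4) / 2 + 1) := by
  have key : Att d 0 (Bmaj d + (Nat.centralBinom ((d - 4) / 2) : ℝ) / 4 ^ ((d - 4) / 2 + 1)) := by
    rcases Nat.even_or_odd' (d - 4) with ⟨k, hk | hk⟩
    · have h1 : d = 4 + 2 * k := by omega
      have h2 : (d - 4) / 2 = k := by omega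
      rw [h2, h1]
      apply att_main 4
      rw [Up4]
      have := att4
      norm_num at this ⊢
      exact this
    · have h1 : d = 5 + 2 * k := by omega
      have h2 : (d - 4) / 2 = k := by omega
      rw [h2, h1]
      apply att_main 5
      rw [Up5]
      have := att5
      norm_num at this ⊢
      exact this
  obtain ⟨n, f, h1, h2⟩ := key
  refine ⟨n, f, h1, ?_⟩
  rw [← h2]
  simp

lemma Up_conv (U : ℤ → ℝ) (hU : ∀ s, U s ≤ (U (s + 1) + U (s - 1)) / 2) (m : ℕ) :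
    ∀ s, Up m U s ≤ (Up m U (s + 1) + Up m U (s - 1)) / 2 := by
  induction m with
  | zero => exact hU
  | succ m ih =>
    intro s
    simp only [Up]
    have h1 := ih (s + 1)
    have h2 := ih (s - 1)
    linarith

lemma absZ_conv : ∀ s, absZ s ≤ (absZ (s + 1) + absZ (s - 1)) / 2 := by
  intro s
  unfold absZ
  push_cast
  have h := abs_add_le ((s : ℝ) + 1) ((s : ℝ) - 1)
  have h2 : ((s : ℝ) + 1) + ((s : ℝ) - 1) = 2 * s := by ring
  rw [h2, abs_mul] at h
  norm_num at h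
  linarith

lemma Bmaj_mono : Monotone Bmaj := by
  apply monotone_nat_of_le_succ
  intro d
  rw [← Up_abs, ← Up_abs]
  exact Up_conv absZ absZ_conv d 0

/-- the same, together with the failure of `W ≤ B_{deg f}` -/
theorem beats_majority' (d : ℕ) (hd : 4 ≤ d) :
    ∃ (n : ℕ) (f : (Fin n → ℤˣ) → ℤˣ), deg f ≤ d ∧
      levelOne f = Bmaj d + (Nat.centralBinom ((d - 4) / 2) : ℝ) / 4 ^ ((d - 4) / 2 + 1) ∧
      Bmaj d < levelOne f ∧ Bmaj (deg f) < levelOne f := by
  obtain ⟨n, f, h1, h2⟩ := beats_majority d hd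
  have h3 : Bmaj d < levelOne f := by
    rw [h2]
    have : (0 : ℝ) < (Nat.centralBinom ((d - 4) / 2) : ℝ) / 4 ^ ((d - 4) / 2 + 1) := by
      apply div_pos
      · exact_mod_cast Nat.centralBinom_pos _
      · positivity
    linarith
  exact ⟨n, f, h1, h2, h3, lt_of_le_of_lt (Bmaj_mono h1) h3⟩

end

end Vale.Agent.P047
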