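import Mathlib

/-!
# P047, part (B): the comparison step

If `|p'| ≤ D (1 - p^2)` and `|p| ≤ 1` on `[-τ, τ]`, then
`p τ - p (-τ) ≤ 2 (k - 1)/(k + 1)` with `k = exp (2 D τ)`.
-/

namespace Vale.Agent.P047.Ode

open Set

/-- The algebraic step: `tanh a - tanh b ≤ 2 tanh ((a - b)/2)` in rational form. -/
lemma alg_step (x y k : ℝ) (hx : |x| < 1) (hy : |y| < 1) (hk : 1 ≤ k)
    (h : (1 + x) * (1 - y) ≤ k ^ 2 * ((1 - x) * (1 + y))) :
    x - y ≤ 2 * (k - 1) / (k + 1) := by
  have hx' := abs_lt.mp hx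
  have hy' := abs_lt.mp hy
  have hk1 : 0 < k + 1 := by linarith
  rw [le_div_iff₀ hk1]
  have hk2 : 0 ≤ k ^ 2 - 1 := by nlinarith
  have h1 : ((x - y) / 2 * (k + 1) - (k - 1)) * ((k + 1) - (x - y) / 2 * (k - 1)) ≤ 0 := by
    have h2 : 0 ≤ (k ^ 2 - 1) * ((x + y) ^ 2 / 4) := mul_nonneg hk2 (by positivity)
    nlinarith [h, h2]
  have h3 : 0 < (k + 1) - (x - y) / 2 * (k - 1) := by
    have : (x - y) / 2 < 1 := by linarith [hx'.2, hy'.1]
    nlinarith
  have h4 : (x - y) / 2 * (k + 1) - (k - 1) ≤ 0 := by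
    by_contra hcon
    have hcon := not_le.mp hcon
    have := mul_pos hcon h3
    linarith
  linarith

/-- The comparison step when `|p| < 1` strictly. -/
lemma ode_strict (p dp : ℝ → ℝ) (D τ : ℝ) (hτ : 0 ≤ τ)
    (hder : ∀ t ∈ Icc (-τ) τ, HasDerivAt p (dp t) t)
    (hb : ∀ t ∈ Icc (-τ) τ, |p t| < 1)
    (hineq : ∀ t ∈ Icc (-τ) τ, |dp t| ≤ D * (1 - p t ^ 2)) :
    (1 + p τ) * (1 - p (-τ)) ≤
      (Real.exp (2 * D * τ)) ^ 2 * ((1 - p τ) * (1 + p (-τ))) := by
  set g : ℝ → ℝ := fun t => Real.log (1 + p t) - Real.log (1 - p t) - 2 * D * t with hg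
  have hgd : ∀ t ∈ Icc (-τ) τ,
      HasDerivAt g (dp t / (1 + p t) - (-dp t) / (1 - p t) - 2 * D) t := by
    intro t ht
    have h1 := abs_lt.mp (hb t ht)
    have hA : HasDerivAt (fun s => 1 + p s) (dp t) t := (hder t ht).const_add 1
    have hB : HasDerivAt (fun s => 1 - p s) (-dp t) t := (hder t ht).const_sub 1
    have hA' := hA.log (by linarith [h1.1] : (1 + p t) ≠ 0)
    have hB' := hB.log (by linarith [h1.2] : (1 - p t) ≠ 0)
    have hC : HasDerivAt (fun s : ℝ => 2 * D * s) (2 * D) t := by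
      simpa using (hasDerivAt_id t).const_mul (2 * D)
    exact (hA'.sub hB').sub hC
  have hanti : AntitoneOn g (Icc (-τ) τ) := by
    apply antitoneOn_of_deriv_nonpos (convex_Icc _ _)
    · intro t ht
      exact (hgd t ht).continuousAt.continuousWithinAt
    · intro t ht
      rw [interior_Icc] at ht
      exact (hgd t (Ioo_subset_Icc_self ht)).differentiableAt.differentiableWithinAt
    · intro t ht
      rw [interior_Icc] at ht
      have ht' := Ioo_subset_Icc_self ht
      rw [(hgd t ht').deriv]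
      have h1 := abs_lt.mp (hb t ht')
      have ha : 0 < 1 + p t := by linarith [h1.1]
      have hb' : 0 < 1 - p t := by linarith [h1.2]
      have e : dp t / (1 + p t) - (-dp t) / (1 - p t)
          = 2 * dp t / ((1 + p t) * (1 - p t)) := by
        field_simp
        ring
      rw [e]
      have : 2 * dp t / ((1 + p t) * (1 - p t)) ≤ 2 * D := by
        rw [div_le_iff₀ (mul_pos ha hb')]
        nlinarith [le_abs_self (dp t), hineq t ht']
      linarith
  have hl : (-τ) ∈ Icc (-τ) τ := ⟨le_refl _, by linarith⟩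
  have hr : τ ∈ Icc (-τ) τ := ⟨by linarith, le_refl _⟩
  have hmain := hanti hl hr (by linarith)
  simp only [hg] at hmain
  have h1 := abs_lt.mp (hb τ hr)
  have h2 := abs_lt.mp (hb (-τ) hl)
  have a1 : 0 < 1 + p τ := by linarith [h1.1]
  have b1 : 0 < 1 - p τ := by linarith [h1.2]
  have a2 : 0 < 1 + p (-τ) := by linarith [h2.1]
  have b2 : 0 < 1 - p (-τ) := by linarith [h2.2]
  have hlog : Real.log ((1 + p τ) * (1 - p (-τ))) ≤
      Real.log ((Real.exp (2 * D * τ)) ^ 2 * ((1 - p τ) * (1 + p (-τ)))) := by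
    rw [Real.log_mul a1.ne' b2.ne', Real.log_mul (by positivity) (by positivity),
      Real.log_mul b1.ne' a2.ne', Real.log_pow, Real.log_exp]
    push_cast
    linarith
  exact (Real.log_le_log_iff (by positivity) (by positivity)).mp hlog

/-- Part (B). -/
theorem ode_bound (p dp : ℝ → ℝ) (D τ : ℝ) (hD : 0 ≤ D) (hτ : 0 ≤ τ)
    (hder : ∀ t ∈ Icc (-τ) τ, HasDerivAt p (dp t) t)
    (hb : ∀ t ∈ Icc (-τ) τ, |p t| ≤ 1)
    (hineq : ∀ t ∈ Icc (-τ) τ, |dp t| ≤ D * (1 - p t ^ 2)) :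
    p τ - p (-τ) ≤ 2 * (Real.exp (2 * D * τ) - 1) / (Real.exp (2 * D * τ) + 1) := by
  set k := Real.exp (2 * D * τ) with hk
  have hk1 : 1 ≤ k := by
    rw [hk]
    exact Real.one_le_exp (by positivity)
  set c := 2 * (k - 1) / (k + 1) with hc
  have hc0 : 0 ≤ c := by
    rw [hc]
    apply div_nonneg <;> linarith
  have key : ∀ ε : ℝ, 0 < ε → ε < 1 → (1 - ε) * (p τ - p (-τ)) ≤ c := by
    intro ε h0 h1
    have hl : (-τ) ∈ Icc (-τ) τ := ⟨le_refl _, by linarith⟩
    have hr : τ ∈ Icc (-τ) τ := ⟨by linarith, le_refl _⟩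
    have hbq : ∀ t ∈ Icc (-τ) τ, |(1 - ε) * p t| < 1 := by
      intro t ht
      rw [abs_mul, abs_of_pos (by linarith : (0 : ℝ) < 1 - ε)]
      have := hb t ht
      have h3 : 0 ≤ |p t| := abs_nonneg _
      nlinarith
    have hs := ode_strict (fun t => (1 - ε) * p t) (fun t => (1 - ε) * dp t) D τ hτ
      (fun t ht => (hder t ht).const_mul (1 - ε)) hbq
      (by
        intro t ht
        rw [abs_mul, abs_of_pos (by linarith : (0 : ℝ) < 1 - ε)]
        have h3 := hineq t ht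
        have h4 : (1 - ε) * |dp t| ≤ (1 - ε) * (D * (1 - p t ^ 2)) :=
          mul_le_mul_of_nonneg_left h3 (by linarith)
        have h5 : (1 - ε) * (1 - p t ^ 2) ≤ 1 - ((1 - ε) * p t) ^ 2 := by
          have : 0 ≤ ε * (1 - ε) * p t ^ 2 := by
            apply mul_nonneg (mul_nonneg h0.le (by linarith)) (sq_nonneg _)
          nlinarith
        have h6 := mul_le_mul_of_nonneg_left h5 hD
        nlinarith)
    have := alg_step ((1 - ε) * p τ) ((1 - ε) * p (-τ)) k (hbq τ hr) (hbq (-τ) hl) hk1 hs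
    rw [hc]
    linarith
  by_contra hcon
  have hcon := not_le.mp hcon
  set X := p τ - p (-τ) with hX
  have hXpos : 0 < X := lt_of_le_of_lt hc0 hcon
  have hε0 : 0 < (X - c) / (2 * X) := div_pos (by linarith) (by linarith)
  have hε1 : (X - c) / (2 * X) < 1 := by
    rw [div_lt_one (by linarith)]
    linarith
  have h := key _ hε0 hε1
  have e : (1 - (X - c) / (2 * X)) * X = (X + c) / 2 := by
    field_simp
    ring
  rw [e] at h
  linarith

end Vale.Agent.P047.Ode
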