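import Mathlib

/-!
# A comparison lemma for `|p'| ≤ D (1 - p^2)` (P047)
-/

namespace Vale.Agent.P047

lemma alg_bound {a b k : ℝ} (ha : |a| < 1) (hb : |b| < 1) (hk : 1 ≤ k)
    (h : (1 + a) * (1 - b) ≤ k ^ 2 * ((1 + b) * (1 - a))) :
    (k + 1) * (a - b) ≤ 2 * (k - 1) := by
  obtain ⟨ha1, ha2⟩ := abs_lt.1 ha
  obtain ⟨hb1, hb2⟩ := abs_lt.1 hb
  by_cases hc : 2 * (1 - b) ≤ (k - 1) * (1 + b)
  · have h1 : 0 ≤ (1 + a) * ((k - 1) * (1 + b) - 2 * (1 - b)) :=
      mul_nonneg (by linarith) (by linarith)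
    have h2 : 0 ≤ 2 * k * ((1 + b) * (1 - a)) :=
      mul_nonneg (by linarith) (mul_nonneg (by linarith) (by linarith))
    have h3 : 0 ≤ (k - 1) * ((1 - a) * (1 - b)) :=
      mul_nonneg (by linarith) (mul_nonneg (by linarith) (by linarith))
    nlinarith [h1, h2, h3]
  · have hc' : (k - 1) * (1 + b) < 2 * (1 - b) := not_le.1 hc
    have h1 : 0 ≤ (k ^ 2 * ((1 + b) * (1 - a)) - (1 + a) * (1 - b))
        * (2 * (1 - b) - (k - 1) * (1 + b)) := mul_nonneg (by linarith) (by linarith)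
    have h2 : 0 ≤ (k - 1) * (1 - a) * (k * (1 + b) - (1 - b)) ^ 2 :=
      mul_nonneg (mul_nonneg (by linarith) (by linarith)) (sq_nonneg _)
    have h3 : (1 - b) * (4 * (k - 1) - 2 * (k + 1) * (a - b))
        = (k ^ 2 * ((1 + b) * (1 - a)) - (1 + a) * (1 - b)) * (2 * (1 - b) - (k - 1) * (1 + b))
          + (k - 1) * (1 - a) * (k * (1 + b) - (1 - b)) ^ 2 := by ring
    by_contra hcon
    have h4 : 4 * (k - 1) - 2 * (k + 1) * (a - b) < 0 := by linarith [not_le.1 hcon]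
    have h5 : (1 - b) * (4 * (k - 1) - 2 * (k + 1) * (a - b)) < 0 :=
      mul_neg_of_pos_of_neg (by linarith) h4
    linarith

theorem ode_bound (D : ℝ) (p p' : ℝ → ℝ) (τ : ℝ) (h0 : 0 ≤ τ) (hD : 0 ≤ D)
    (hp : ∀ t, HasDerivAt p (p' t) t)
    (h1 : ∀ t, |t| ≤ τ → |p t| < 1)
    (h2 : ∀ t, |t| ≤ τ → |p' t| ≤ D * (1 - (p t) ^ 2)) :
    (Real.exp (2 * D * τ) + 1) * (p τ - p (-τ)) ≤ 2 * (Real.exp (2 * D * τ) - 1) := by
  set u : ℝ → ℝ := fun t => Real.log (1 + p t) - Real.log (1 - p t) - 2 * D * t with hu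
  have hder : ∀ t, |t| ≤ τ →
      HasDerivAt u (p' t / (1 + p t) - (-p' t) / (1 - p t) - 2 * D * 1) t := by
    intro t ht
    obtain ⟨q1, q2⟩ := abs_lt.1 (h1 t ht)
    have d1 : HasDerivAt (fun t => Real.log (1 + p t)) (p' t / (1 + p t)) t :=
      ((hp t).const_add 1).log (by linarith)
    have d2 : HasDerivAt (fun t => Real.log (1 - p t)) (-p' t / (1 - p t)) t :=
      ((hp t).const_sub 1).log (by linarith)
    have d3 : HasDerivAt (fun t : ℝ => 2 * D * t) (2 * D * 1) t :=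
      (hasDerivAt_id t).const_mul (2 * D)
    exact (d1.sub d2).sub d3
  have hneg : ∀ t, |t| ≤ τ → p' t / (1 + p t) - (-p' t) / (1 - p t) - 2 * D * 1 ≤ 0 := by
    intro t ht
    obtain ⟨q1, q2⟩ := abs_lt.1 (h1 t ht)
    have a1 : 0 < 1 + p t := by linarith
    have a2 : 0 < 1 - p t := by linarith
    have e : p' t / (1 + p t) - (-p' t) / (1 - p t) = 2 * p' t / ((1 + p t) * (1 - p t)) := by
      field_simp
      ring
    rw [e]
    have h3 : p' t ≤ D * (1 - (p t) ^ 2) := le_trans (le_abs_self _) (h2 t ht)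
    have h4 : 2 * p' t / ((1 + p t) * (1 - p t)) ≤ 2 * D := by
      rw [div_le_iff₀ (mul_pos a1 a2)]
      nlinarith
    linarith
  have hmem : ∀ t, t ∈ Set.Icc (-τ) τ → |t| ≤ τ := fun t ht => abs_le.2 ⟨ht.1, ht.2⟩
  have hanti : AntitoneOn u (Set.Icc (-τ) τ) := by
    apply antitoneOn_of_deriv_nonpos (convex_Icc _ _)
    · intro t ht
      exact (hder t (hmem t ht)).continuousAt.continuousWithinAt
    · intro t ht
      exact (hder t (hmem t (interior_subset ht))).differentiableAt.differentiableWithinAt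
    · intro t ht
      rw [(hder t (hmem t (interior_subset ht))).deriv]
      exact hneg t (hmem t (interior_subset ht))
  have hle : u τ ≤ u (-τ) :=
    hanti (Set.mem_Icc.2 ⟨le_rfl, by linarith⟩) (Set.mem_Icc.2 ⟨by linarith, le_rfl⟩) (by linarith)
  have hτ1 : |τ| ≤ τ := by rw [abs_of_nonneg h0]
  have hτ2 : |-τ| ≤ τ := by rw [abs_neg, abs_of_nonneg h0]
  obtain ⟨a1, a2⟩ := abs_lt.1 (h1 τ hτ1)
  obtain ⟨b1, b2⟩ := abs_lt.1 (h1 (-τ) hτ2)
  simp only [hu] at hle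
  have hk : (1 : ℝ) ≤ Real.exp (2 * D * τ) := Real.one_le_exp (by positivity)
  apply alg_bound (h1 τ hτ1) (h1 (-τ) hτ2) hk
  have e1 : (1 + p τ) * (1 - p (-τ))
      = Real.exp (Real.log (1 + p τ) + Real.log (1 - p (-τ))) := by
    rw [Real.exp_add, Real.exp_log (by linarith), Real.exp_log (by linarith)]
  have e2 : Real.exp (2 * D * τ) ^ 2 * ((1 + p (-τ)) * (1 - p τ))
      = Real.exp (2 * D * τ + 2 * D * τ + (Real.log (1 + p (-τ)) + Real.log (1 - p τ))) := by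
    rw [Real.exp_add, Real.exp_add, Real.exp_add, Real.exp_log (by linarith),
      Real.exp_log (by linarith)]
    ring
  rw [e1, e2]
  apply Real.exp_le_exp.2
  linarith

end Vale.Agent.P047
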