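import Vale.Agent.P047.Junta

/-!
# One-sided conical juntas: a square-root bound for the level-one sum.
-/

namespace Vale.Agent.P047

open Finset

noncomputable section

variable {ι : Type*} [Fintype ι] [DecidableEq ι]

/-- number of coordinates fixed to `+1` -/
def npos (ρ : ι → Option ℤˣ) : ℕ := (univ.filter (fun i => ρ i = some 1)).card

/-- number of coordinates fixed to `-1` -/
def nneg (ρ : ι → Option ℤˣ) : ℕ := (univ.filter (fun i => ρ i = some (-1))).card

lemma prod_tilt_sig (ρ : ι → Option ℤˣ) (δ : ℝ) :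
    ∏ i, (1 + δ * sig ρ i) = (1 + δ) ^ npos ρ * (1 - δ) ^ nneg ρ := by
  have h : ∀ i, 1 + δ * sig ρ i =
      (if ρ i = some 1 then 1 + δ else 1) * (if ρ i = some (-1) then 1 - δ else 1) := by
    intro i
    unfold sig
    cases hi : ρ i with
    | none => simp
    | some s =>
      rcases Int.units_eq_one_or s with h | h
      · subst h
        have : ¬ ((1 : ℤˣ) = -1) := by decide
        simp [this]
      · subst h
        have : ¬ ((-1 : ℤˣ) = 1) := by decide
        simp [this]; ring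
  simp_rw [h]
  rw [Finset.prod_mul_distrib, Finset.prod_ite, Finset.prod_ite]
  simp [npos, nneg]

lemma sum_sig (ρ : ι → Option ℤˣ) : ∑ i, sig ρ i = (npos ρ : ℝ) - nneg ρ := by
  have h : ∀ i, sig ρ i =
      (if ρ i = some 1 then (1 : ℝ) else 0) - (if ρ i = some (-1) then (1 : ℝ) else 0) := by
    intro i
    unfold sig
    cases hi : ρ i with
    | none => simp
    | some s =>
      rcases Int.units_eq_one_or s with h | h
      · subst h
        have : ¬ ((1 : ℤˣ) = -1) := by decide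
        simp [this]
      · subst h
        have : ¬ ((-1 : ℤˣ) = 1) := by decide
        simp [this]
  simp_rw [h]
  rw [Finset.sum_sub_distrib]
  simp [npos, nneg]

lemma codim_eq (ρ : ι → Option ℤˣ) : codim ρ = npos ρ + nneg ρ := by
  unfold codim npos nneg
  rw [← Finset.card_union_of_disjoint]
  · congr 1
    ext i
    simp only [Finset.mem_filter, Finset.mem_univ, true_and, Finset.mem_union]
    cases hi : ρ i with
    | none => simp
    | some s =>
      rcases Int.units_eq_one_or s with h | h <;> simp [h]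
  · rw [Finset.disjoint_filter]
    intro i _ h1 h2
    rw [h1] at h2
    exact absurd (Option.some.inj h2) (by decide)

/-- the numerical inequality behind the bound -/
lemma num_ineq (d a b : ℕ) (hd : 1 ≤ d) (hab : a + b ≤ d) :
    (a : ℝ) - b ≤ 2 * Real.sqrt d * ((1 + 1 / Real.sqrt d) ^ a * (1 - 1 / Real.sqrt d) ^ b) := by
  have hd0 : (0 : ℝ) < d := by exact_mod_cast hd
  have hs : 0 < Real.sqrt d := Real.sqrt_pos.2 hd0
  have hs1 : 1 ≤ Real.sqrt d := by
    rw [show (1 : ℝ) = Real.sqrt 1 by simp]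
    exact Real.sqrt_le_sqrt (by exact_mod_cast hd)
  set δ : ℝ := 1 / Real.sqrt d with hδ
  have hδ0 : 0 < δ := by positivity
  have hδ1 : δ ≤ 1 := by
    rw [hδ, div_le_one hs]; exact hs1
  have hδ2 : δ * δ = 1 / d := by
    rw [hδ, div_mul_div_comm, Real.mul_self_sqrt hd0.le, one_mul]
  by_cases hle : a ≤ b
  · have h1 : (a : ℝ) - b ≤ 0 := by
      have : (a : ℝ) ≤ b := by exact_mod_cast hle
      linarith
    have h2 : 0 ≤ 2 * Real.sqrt d * ((1 + δ) ^ a * (1 - δ) ^ b) := by
      have : 0 ≤ 1 - δ := by linarith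
      positivity
    linarith
  · obtain ⟨s, rfl⟩ : ∃ s, a = b + s := ⟨a - b, by omega⟩
    have e1 : (1 + δ) ^ (b + s) * (1 - δ) ^ b = (1 + δ) ^ s * (1 + (-(δ * δ))) ^ b := by
      rw [pow_add, show (1 + (-(δ * δ))) = (1 + δ) * (1 - δ) by ring, mul_pow]
      ring
    have b1 : 1 + (s : ℝ) * δ ≤ (1 + δ) ^ s := one_add_mul_le_pow (by linarith) s
    have b2 : 1 + (b : ℝ) * (-(δ * δ)) ≤ (1 + (-(δ * δ))) ^ b :=
      one_add_mul_le_pow (by nlinarith) b
    have b3 : (1 : ℝ) / 2 ≤ 1 + (b : ℝ) * (-(δ * δ)) := by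
      rw [hδ2]
      have : (2 : ℝ) * b ≤ d := by
        have : 2 * b ≤ d := by omega
        exact_mod_cast this
      have h3 : (b : ℝ) * (1 / d) ≤ 1 / 2 := by
        rw [mul_one_div, div_le_iff₀ hd0]
        linarith
      linarith
    have hsδ : Real.sqrt d * δ = 1 := by
      rw [hδ]; field_simp
    rw [e1]
    have h5 : (s : ℝ) * δ * (1 / 2) ≤ (1 + δ) ^ s * (1 + (-(δ * δ))) ^ b := by
      apply mul_le_mul
      · linarith
      · linarith
      · norm_num
      · positivity
    have h6 : 2 * Real.sqrt d * ((s : ℝ) * δ * (1 / 2)) = s := by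
      calc 2 * Real.sqrt d * ((s : ℝ) * δ * (1 / 2)) = (Real.sqrt d * δ) * s := by ring
        _ = s := by rw [hsδ, one_mul]
    have h7 := mul_le_mul_of_nonneg_left h5 (by positivity : 0 ≤ 2 * Real.sqrt d)
    rw [h6] at h7
    push_cast
    linarith

/-- the density of a biased product measure -/
def tilt (δ : ℝ) (x : ι → ℤˣ) : ℝ := ∏ i, (1 + δ * rv (x i))

omit [DecidableEq ι] in
lemma tilt_nonneg (δ : ℝ) (h : |δ| ≤ 1) (x : ι → ℤˣ) : 0 ≤ tilt δ x := by
  apply Finset.prod_nonneg
  intro i _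
  have := abs_le.1 h
  rcases Int.units_eq_one_or (x i) with h1 | h1 <;> simp [h1] <;> linarith

lemma expect_tilt (δ : ℝ) : expect (tilt δ : (ι → ℤˣ) → ℝ) = 1 := by
  unfold tilt
  rw [expect_prod (fun _ (u : ℤˣ) => 1 + δ * rv u)]
  apply Finset.prod_eq_one
  intro i _
  simp only [rv_one, rv_neg_one]
  ring

lemma expect_ind_tilt (ρ : ι → Option ℤˣ) (δ : ℝ) :
    expect (fun x => ind ρ x * tilt δ x) = (1 / 2) ^ codim ρ * ∏ i, (1 + δ * sig ρ i) := by
  have h1 : (fun x : ι → ℤˣ => ind ρ x * tilt δ x) = fun x => ∏ i,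
      (fun i (u : ℤˣ) => (match ρ i with
        | none => (1 : ℝ)
        | some s => (1 + rv s * rv u) / 2) * (1 + δ * rv u)) i (x i) := by
    funext x
    rw [ind_eq_prod, tilt, ← Finset.prod_mul_distrib]
    rfl
  rw [h1, expect_prod (fun i (u : ℤˣ) => (match ρ i with
        | none => (1 : ℝ)
        | some s => (1 + rv s * rv u) / 2) * (1 + δ * rv u))]
  have h2 : (1 / 2 : ℝ) ^ codim ρ = ∏ i, (if (ρ i).isSome then (1 / 2 : ℝ) else 1) := by
    unfold codim
    rw [Finset.prod_ite, Finset.prod_const, Finset.prod_const_one, mul_one]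
  rw [h2, ← Finset.prod_mul_distrib]
  apply Finset.prod_congr rfl
  intro i _
  unfold sig
  cases hi : ρ i with
  | none => simp only [rv_one, rv_neg_one, Option.isSome_none]; simp; ring
  | some s =>
    rcases Int.units_eq_one_or s with h | h <;> simp [h] <;> ring

/-- Fourier coefficients when the indicator of `{f = -ε}` is a combination of subcube indicators. -/
lemma fourier_oneSided {Q : Type*} [Fintype Q] (f : (ι → ℤˣ) → ℤˣ) (ε : ℤˣ)
    (ρ : Q → ι → Option ℤˣ) (α : Q → ℝ)
    (hcover : ∀ x, ∑ q, α q * ind (ρ q) x = (1 - rv ε * rv (f x)) / 2) (S : Finset ι)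
    (hS : S ≠ ∅) :
    fourier f S = -2 * rv ε * ∑ q, α q * ((1 / 2) ^ codim (ρ q) * ∏ i ∈ S, sig (ρ q) i) := by
  have hf : ∀ x, rv (f x) = rv ε * (1 - 2 * ∑ q, α q * ind (ρ q) x) := by
    intro x
    rw [hcover x]
    have := rv_mul_self ε
    linear_combination (-(rv (f x))) * this
  unfold fourier
  have h1 : (fun x : ι → ℤˣ => rv (f x) * chi S x)
      = fun x => rv ε * chi S x + ∑ q, (-2 * rv ε * α q) * (ind (ρ q) x * chi S x) := by
    funext x
    rw [hf x]
    have : ∑ q, (-2 * rv ε * α q) * (ind (ρ q) x * chi S x)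
        = -2 * rv ε * (∑ q, α q * ind (ρ q) x) * chi S x := by
      rw [Finset.mul_sum, Finset.sum_mul]
      apply Finset.sum_congr rfl
      intro q _; ring
    rw [this]; ring
  rw [h1, expect_add, expect_const_mul, expect_chi, if_neg hS, expect_sum, Finset.mul_sum]
  rw [mul_zero, zero_add]
  apply Finset.sum_congr rfl
  intro q _
  rw [expect_const_mul, expect_ind_chi]
  ring

lemma deg_le_oneSided {Q : Type*} [Fintype Q] (f : (ι → ℤˣ) → ℤˣ) (ε : ℤˣ)
    (ρ : Q → ι → Option ℤˣ) (α : Q → ℝ)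
    (hcover : ∀ x, ∑ q, α q * ind (ρ q) x = (1 - rv ε * rv (f x)) / 2)
    (d : ℕ) (hd : ∀ q, codim (ρ q) ≤ d) : deg f ≤ d := by
  rw [deg_le_iff]
  intro S hS
  have hne : S ≠ ∅ := by
    rintro rfl
    simp at hS
  rw [fourier_oneSided f ε ρ α hcover S hne]
  rw [Finset.sum_eq_zero, mul_zero]
  intro q _
  have : ∃ i ∈ S, ρ q i = none := by
    by_contra hcon
    push Not at hcon
    have hsub : S ⊆ univ.filter (fun i => (ρ q i).isSome) := by
      intro i hi
      simp only [Finset.mem_filter, Finset.mem_univ, true_and]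
      exact Option.isSome_iff_ne_none.mpr (hcon i hi)
    have := Finset.card_le_card hsub
    have h2 := hd q
    unfold codim at h2
    omega
  obtain ⟨i, hi, hnone⟩ := this
  rw [Finset.prod_eq_zero hi, mul_zero, mul_zero]
  simp [sig, hnone]

/-- packing inequality under a biased product measure -/
lemma tilt_packing {Q : Type*} [Fintype Q] (f : (ι → ℤˣ) → ℤˣ) (ε : ℤˣ)
    (ρ : Q → ι → Option ℤˣ) (α : Q → ℝ)
    (hcover : ∀ x, ∑ q, α q * ind (ρ q) x = (1 - rv ε * rv (f x)) / 2) (δ : ℝ) (hδ : |δ| ≤ 1) :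
    ∑ q, α q * ((1 / 2) ^ codim (ρ q) * ∏ i, (1 + δ * sig (ρ q) i)) ≤ 1 := by
  have h1 : ∑ q, α q * ((1 / 2) ^ codim (ρ q) * ∏ i, (1 + δ * sig (ρ q) i))
      = expect (fun x : ι → ℤˣ => ((1 - rv ε * rv (f x)) / 2) * tilt δ x) := by
    have : (fun x : ι → ℤˣ => ((1 - rv ε * rv (f x)) / 2) * tilt δ x)
        = fun x => ∑ q, α q * (ind (ρ q) x * tilt δ x) := by
      funext x
      rw [← hcover x, Finset.sum_mul]
      apply Finset.sum_congr rfl
      intro q _; ring
    rw [this, expect_sum]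
    apply Finset.sum_congr rfl
    intro q _
    rw [expect_const_mul, expect_ind_tilt]
  rw [h1]
  have h3 : expect (fun x : ι → ℤˣ => ((1 - rv ε * rv (f x)) / 2) * tilt δ x)
      ≤ expect (tilt δ : (ι → ℤˣ) → ℝ) := by
    unfold expect
    apply div_le_div_of_nonneg_right _ (by positivity)
    apply Finset.sum_le_sum
    intro x _
    have h2 : (1 - rv ε * rv (f x)) / 2 ≤ 1 := by
      rcases Int.units_eq_one_or ε with h | h <;> rcases Int.units_eq_one_or (f x) with h' | h' <;>
        simp [h, h'] <;> norm_num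
    calc (1 - rv ε * rv (f x)) / 2 * tilt δ x ≤ 1 * tilt δ x :=
          mul_le_mul_of_nonneg_right h2 (tilt_nonneg δ hδ x)
      _ = tilt δ x := one_mul _
  rw [expect_tilt] at h3
  exact h3

/-- the square-root bound for one-sided conical juntas -/
theorem levelOne_oneSided {Q : Type*} [Fintype Q] (f : (ι → ℤˣ) → ℤˣ) (ε : ℤˣ)
    (ρ : Q → ι → Option ℤˣ) (α : Q → ℝ) (hα : ∀ q, 0 ≤ α q)
    (hcover : ∀ x, ∑ q, α q * ind (ρ q) x = (1 - rv ε * rv (f x)) / 2)
    (d : ℕ) (hd1 : 1 ≤ d) (hd : ∀ q, codim (ρ q) ≤ d) :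
    |levelOne f| ≤ 4 * Real.sqrt d := by
  have hd0 : (0 : ℝ) < d := by exact_mod_cast hd1
  have hs : 0 < Real.sqrt d := Real.sqrt_pos.2 hd0
  have hs1 : 1 ≤ Real.sqrt d := by
    rw [show (1 : ℝ) = Real.sqrt 1 by simp]
    exact Real.sqrt_le_sqrt (by exact_mod_cast hd1)
  set δ : ℝ := 1 / Real.sqrt d with hδ
  have hδ0 : 0 < δ := by positivity
  have hδ1 : δ ≤ 1 := by
    rw [hδ, div_le_one hs]; exact hs1
  set w : Q → ℝ := fun q => α q * (1 / 2) ^ codim (ρ q) with hw
  have hw0 : ∀ q, 0 ≤ w q := fun q => mul_nonneg (hα q) (by positivity)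
  have hW : levelOne f = -2 * rv ε * ∑ q, w q * ∑ i, sig (ρ q) i := by
    unfold levelOne
    have : ∀ i, fourier f {i} = -2 * rv ε * ∑ q, w q * sig (ρ q) i := by
      intro i
      rw [fourier_oneSided f ε ρ α hcover {i} (Finset.singleton_ne_empty i)]
      congr 1
      apply Finset.sum_congr rfl
      intro q _
      rw [Finset.prod_singleton]
      simp only [hw]; ring
    simp_rw [this]
    rw [← Finset.mul_sum, Finset.sum_comm]
    congr 1
    apply Finset.sum_congr rfl
    intro q _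
    rw [Finset.mul_sum]
  have up : ∑ q, w q * ∑ i, sig (ρ q) i ≤ 2 * Real.sqrt d := by
    have hp := tilt_packing f ε ρ α hcover δ (by rw [abs_of_pos hδ0]; exact hδ1)
    calc ∑ q, w q * ∑ i, sig (ρ q) i
        ≤ ∑ q, w q * (2 * Real.sqrt d * ∏ i, (1 + δ * sig (ρ q) i)) := by
          apply Finset.sum_le_sum
          intro q _
          apply mul_le_mul_of_nonneg_left _ (hw0 q)
          rw [sum_sig, prod_tilt_sig]
          exact num_ineq d _ _ hd1 (by rw [← codim_eq]; exact hd q)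
      _ = 2 * Real.sqrt d * ∑ q, α q * ((1 / 2) ^ codim (ρ q) * ∏ i, (1 + δ * sig (ρ q) i)) := by
          rw [Finset.mul_sum]
          apply Finset.sum_congr rfl
          intro q _
          simp only [hw]; ring
      _ ≤ 2 * Real.sqrt d * 1 := mul_le_mul_of_nonneg_left hp (by positivity)
      _ = 2 * Real.sqrt d := mul_one _
  have lo : -(∑ q, w q * ∑ i, sig (ρ q) i) ≤ 2 * Real.sqrt d := by
    have hp := tilt_packing f ε ρ α hcover (-δ) (by rw [abs_neg, abs_of_pos hδ0]; exact hδ1)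
    calc -(∑ q, w q * ∑ i, sig (ρ q) i)
        = ∑ q, w q * (-∑ i, sig (ρ q) i) := by
          rw [← Finset.sum_neg_distrib]
          apply Finset.sum_congr rfl
          intro q _; ring
      _ ≤ ∑ q, w q * (2 * Real.sqrt d * ∏ i, (1 + (-δ) * sig (ρ q) i)) := by
          apply Finset.sum_le_sum
          intro q _
          apply mul_le_mul_of_nonneg_left _ (hw0 q)
          rw [sum_sig, prod_tilt_sig]
          have := num_ineq d (nneg (ρ q)) (npos (ρ q)) hd1
            (by rw [add_comm, ← codim_eq]; exact hd q)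
          rw [show (1 : ℝ) + -δ = 1 - δ by ring, show (1 : ℝ) - -δ = 1 + δ by ring, mul_comm ((1 - δ) ^ _)]
          linarith
      _ = 2 * Real.sqrt d * ∑ q, α q * ((1 / 2) ^ codim (ρ q) * ∏ i, (1 + (-δ) * sig (ρ q) i)) := by
          rw [Finset.mul_sum]
          apply Finset.sum_congr rfl
          intro q _
          simp only [hw]; ring
      _ ≤ 2 * Real.sqrt d * 1 := mul_le_mul_of_nonneg_left hp (by positivity)
      _ = 2 * Real.sqrt d := mul_one _
  rw [hW, abs_mul, abs_mul, rv_abs]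
  have : |∑ q, w q * ∑ i, sig (ρ q) i| ≤ 2 * Real.sqrt d := abs_le.2 ⟨by linarith, up⟩
  simp only [abs_neg, abs_two, mul_one]
  linarith

end

end Vale.Agent.P047
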