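import Mathlib

namespace Vale.Agent.P047

open Finset

/-- the basic root `exp (i pi / (2 d))` -/
noncomputable def rzz (d : ℕ) : ℂ := Complex.exp (((Real.pi / (2 * d) : ℝ) : ℂ) * Complex.I)

/-- the nodes `exp (i (2k+1) pi / (2 d))` -/
noncomputable def rww (d k : ℕ) : ℂ := rzz d ^ (2 * k + 1)

theorem rzz_pow_d (d : ℕ) (hd : 1 ≤ d) : rzz d ^ d = Complex.I := by
  unfold rzz
  rw [← Complex.exp_nat_mul]
  have hd0 : (d : ℂ) ≠ 0 := by
    have : d ≠ 0 := by omega
    exact_mod_cast this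
  have e : (d : ℂ) * (((Real.pi / (2 * d) : ℝ) : ℂ) * Complex.I)
      = ((Real.pi / 2 : ℝ) : ℂ) * Complex.I := by
    push_cast
    field_simp
  rw [e, Complex.exp_mul_I, ← Complex.ofReal_cos, ← Complex.ofReal_sin]
  simp

theorem rzz_conj_mul (d : ℕ) : (starRingEnd ℂ) (rzz d) * rzz d = 1 := by
  rw [Complex.conj_mul']
  unfold rzz
  rw [Complex.norm_exp_ofReal_mul_I]
  simp

theorem rww_conj_mul (d k : ℕ) : (starRingEnd ℂ) (rww d k) * rww d k = 1 := by
  unfold rww
  rw [map_pow, ← mul_pow, rzz_conj_mul, one_pow]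

theorem rww_pow_d (d : ℕ) (hd : 1 ≤ d) (k : ℕ) : rww d k ^ d = Complex.I * (-1) ^ k := by
  unfold rww
  rw [← pow_mul, mul_comm, pow_mul, rzz_pow_d d hd, pow_succ, pow_mul, Complex.I_sq, mul_comm]

theorem rzz_sq (d : ℕ) : rzz d ^ 2 = Complex.exp (2 * Real.pi * Complex.I / ((2 * d : ℕ) : ℂ)) := by
  unfold rzz
  rw [← Complex.exp_nat_mul]
  congr 1
  by_cases hd : d = 0
  · subst hd; simp
  have hd0 : (d : ℂ) ≠ 0 := by exact_mod_cast hd
  push_cast
  field_simp

theorem rww_pow (d k n : ℕ) : rww d k ^ n = rzz d ^ n * ((rzz d ^ 2) ^ n) ^ k := by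
  unfold rww
  rw [← pow_mul, ← pow_mul, ← pow_mul, ← pow_add]
  congr 1
  ring

/-- orthogonality -/
theorem rww_orth (d : ℕ) (hd : 1 ≤ d) (n : ℕ) (h1 : 1 ≤ n) (h2 : n < 2 * d) :
    ∑ k ∈ range (2 * d), rww d k ^ n = 0 := by
  have hprim := Complex.isPrimitiveRoot_exp (2 * d) (by omega)
  rw [← rzz_sq] at hprim
  have hne : (rzz d ^ 2) ^ n ≠ 1 := hprim.pow_ne_one_of_pos_of_lt (by omega) h2
  have hone : ((rzz d ^ 2) ^ n) ^ (2 * d) = 1 := by
    rw [← pow_mul, mul_comm, pow_mul, hprim.pow_eq_one, one_pow]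
  have hg := geom_sum_mul ((rzz d ^ 2) ^ n) (2 * d)
  rw [hone, sub_self] at hg
  have hz : ∑ k ∈ range (2 * d), ((rzz d ^ 2) ^ n) ^ k = 0 := by
    rcases mul_eq_zero.1 hg with h | h
    · exact h
    · exact absurd (sub_eq_zero.1 h) hne
  simp_rw [rww_pow]
  rw [← Finset.mul_sum, hz, mul_zero]

theorem rww_pow_two_d (d : ℕ) (hd : 1 ≤ d) (k : ℕ) : rww d k ^ (2 * d) = -1 := by
  rw [mul_comm, pow_mul, rww_pow_d d hd, mul_pow, Complex.I_sq, ← pow_mul, mul_comm k 2, pow_mul]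
  simp

theorem rww_orth_conj (d : ℕ) (hd : 1 ≤ d) (n : ℕ) (h1 : 1 ≤ n) (h2 : n < 2 * d) :
    ∑ k ∈ range (2 * d), (starRingEnd ℂ) (rww d k) ^ n = 0 := by
  have := congrArg (starRingEnd ℂ) (rww_orth d hd n h1 h2)
  rw [map_sum, map_zero] at this
  simpa [map_pow] using this

/-- sums of a polynomial of degree `< 2 d` over the nodes -/
theorem rww_sum_poly (d : ℕ) (hd : 1 ≤ d) (P : Polynomial ℂ) (hP : P.natDegree < 2 * d) :
    ∑ k ∈ range (2 * d), P.eval (rww d k) = 2 * d * P.coeff 0 := by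
  simp_rw [Polynomial.eval_eq_sum_range' hP]
  rw [Finset.sum_comm]
  have : ∀ i ∈ range (2 * d), ∑ k ∈ range (2 * d), P.coeff i * rww d k ^ i
      = if i = 0 then 2 * d * P.coeff 0 else 0 := by
    intro i hi
    rw [← Finset.mul_sum]
    by_cases h0 : i = 0
    · subst h0
      simp
      ring
    · rw [if_neg h0, rww_orth d hd i (by omega) (Finset.mem_range.1 hi), mul_zero]
  rw [Finset.sum_congr rfl this, Finset.sum_ite_eq' ]
  simp
  omega


section alg

variable {d : ℕ} {w wb σ : ℂ}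

theorem rz_reflect (h1 : wb * w = 1) (_hd : 1 ≤ d) :
    w ^ d * ∑ l ∈ range d, wb ^ l = w * ∑ l ∈ range d, w ^ l := by
  rw [Finset.mul_sum, Finset.mul_sum, ← Finset.sum_range_reflect (fun l => w * w ^ l) d]
  refine Finset.sum_congr rfl fun l hl => ?_
  have hl' := Finset.mem_range.1 hl
  have e : d = (d - 1 - l + 1) + l := by omega
  calc w ^ d * wb ^ l = w ^ ((d - 1 - l + 1) + l) * wb ^ l := by rw [← e]
    _ = w ^ (d - 1 - l + 1) * (wb * w) ^ l := by rw [pow_add, mul_pow]; ring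
    _ = w * w ^ (d - 1 - l) := by rw [h1, one_pow, mul_one, pow_succ]; ring

theorem rz_sigma (h2 : w ^ d = Complex.I * σ) : σ = -Complex.I * w ^ d := by
  rw [h2, ← mul_assoc]
  simp

/-- j = 0 -/
theorem rz_id0 (h1 : wb * w = 1) (hd : 1 ≤ d) (h2 : w ^ d = Complex.I * σ) :
    σ * ((∑ l ∈ range d, w ^ l) * (∑ l ∈ range d, wb ^ l)) =
      -Complex.I * (w * (∑ l ∈ range d, w ^ l) ^ 2) := by
  have e := rz_reflect (d := d) h1 hd
  calc σ * ((∑ l ∈ range d, w ^ l) * (∑ l ∈ range d, wb ^ l))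
      = -Complex.I * ((∑ l ∈ range d, w ^ l) * (w ^ d * ∑ l ∈ range d, wb ^ l)) := by
        rw [rz_sigma h2]; ring
    _ = _ := by rw [e]; ring

theorem rz_sub (h1 : wb * w = 1) : w * (w - wb) = w ^ 2 - 1 := by
  have : w * wb = 1 := by rw [mul_comm]; exact h1
  calc w * (w - wb) = w ^ 2 - w * wb := by ring
    _ = _ := by rw [this]

/-- j = 1 -/
theorem rz_id1 (h1 : wb * w = 1) (hd : 1 ≤ d) (h2 : w ^ d = Complex.I * σ) :
    σ * ((∑ l ∈ range d, w ^ l) * (∑ l ∈ range d, wb ^ l)) * (w - wb) =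
      -Complex.I * ((∑ l ∈ range d, w ^ l) * (w ^ d - 1) * (w + 1)) := by
  rw [rz_id0 h1 hd h2]
  have g := geom_sum_mul w d
  calc -Complex.I * (w * (∑ l ∈ range d, w ^ l) ^ 2) * (w - wb)
      = -Complex.I * ((∑ l ∈ range d, w ^ l) ^ 2 * (w * (w - wb))) := by ring
    _ = -Complex.I * ((∑ l ∈ range d, w ^ l) * ((∑ l ∈ range d, w ^ l) * (w - 1)) * (w + 1)) := by
        rw [rz_sub h1]; ring
    _ = _ := by rw [g]

/-- j at least 2 -/
theorem rz_id2 (h1 : wb * w = 1) (hd : 1 ≤ d) (h2 : w ^ d = Complex.I * σ) (hs : σ ^ 2 = 1)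
    (j : ℕ) (hj : j + 2 ≤ d) :
    σ * ((∑ l ∈ range d, w ^ l) * (∑ l ∈ range d, wb ^ l)) * (w - wb) ^ (j + 2) =
      2 * Complex.I * (w ^ (d - 1 - j) * (w + 1) ^ 2 * (w ^ 2 - 1) ^ j) := by
  rw [rz_id0 h1 hd h2]
  have g := geom_sum_mul w d
  have hw0 : w ≠ 0 := by
    intro h; rw [h, mul_zero] at h1; exact zero_ne_one h1
  have h2d : (w ^ d) ^ 2 = -1 := by
    rw [h2, mul_pow, hs, Complex.I_sq, mul_one]
  have key : (∑ l ∈ range d, w ^ l) ^ 2 * (w ^ 2 - 1) ^ 2 = -2 * w ^ d * (w + 1) ^ 2 := by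
    calc (∑ l ∈ range d, w ^ l) ^ 2 * (w ^ 2 - 1) ^ 2
        = ((∑ l ∈ range d, w ^ l) * (w - 1)) ^ 2 * (w + 1) ^ 2 := by ring
      _ = ((w ^ d) ^ 2 - 2 * w ^ d + 1) * (w + 1) ^ 2 := by rw [g]; ring
      _ = _ := by rw [h2d]; ring
  have hpow : w ^ (j + 1) * w ^ (d - 1 - j) = w ^ d := by
    rw [← pow_add]; congr 1; omega
  -- multiply by w^(j+2)
  have hmul : w ^ (j + 2) * (-Complex.I * (w * (∑ l ∈ range d, w ^ l) ^ 2) * (w - wb) ^ (j + 2))
      = w ^ (j + 2) * (2 * Complex.I * (w ^ (d - 1 - j) * (w + 1) ^ 2 * (w ^ 2 - 1) ^ j)) := by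
    calc w ^ (j + 2) * (-Complex.I * (w * (∑ l ∈ range d, w ^ l) ^ 2) * (w - wb) ^ (j + 2))
        = -Complex.I * w * (∑ l ∈ range d, w ^ l) ^ 2 * (w * (w - wb)) ^ (j + 2) := by
          rw [mul_pow]; ring
      _ = -Complex.I * w * ((∑ l ∈ range d, w ^ l) ^ 2 * (w ^ 2 - 1) ^ 2) * (w ^ 2 - 1) ^ j := by
          rw [rz_sub h1]; ring
      _ = 2 * Complex.I * w * w ^ d * (w + 1) ^ 2 * (w ^ 2 - 1) ^ j := by rw [key]; ring
      _ = _ := by rw [← hpow]; ring
  exact mul_left_cancel₀ (pow_ne_zero _ hw0) hmul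

end alg


/-- the geometric sums at the nodes -/
noncomputable def rSS (d k : ℕ) : ℂ := ∑ l ∈ range d, rww d k ^ l

theorem rSS_conj (d k : ℕ) :
    (starRingEnd ℂ) (rSS d k) = ∑ l ∈ range d, (starRingEnd ℂ) (rww d k) ^ l := by
  unfold rSS
  rw [map_sum]
  simp [map_pow]

theorem rgeom_natDegree (d : ℕ) :
    (∑ l ∈ range d, (Polynomial.X : Polynomial ℂ) ^ l).natDegree ≤ d - 1 := by
  refine Polynomial.natDegree_sum_le_of_forall_le _ _ fun i hi => ?_
  have := Finset.mem_range.1 hi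
  rw [Polynomial.natDegree_X_pow]
  omega

/-- moment zero -/
theorem rz_sum0 (d : ℕ) (hd : 1 ≤ d) :
    ∑ k ∈ range (2 * d), (-1 : ℂ) ^ k * (rSS d k * (starRingEnd ℂ) (rSS d k)) = 0 := by
  have h : ∀ k ∈ range (2 * d), (-1 : ℂ) ^ k * (rSS d k * (starRingEnd ℂ) (rSS d k))
      = -Complex.I * (Polynomial.X * (∑ l ∈ range d, (Polynomial.X : Polynomial ℂ) ^ l) ^ 2).eval
          (rww d k) := by
    intro k _
    rw [rSS_conj]
    unfold rSS
    rw [rz_id0 (rww_conj_mul d k) hd (rww_pow_d d hd k)]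
    simp [Polynomial.eval_finsetSum]
  rw [Finset.sum_congr rfl h, ← Finset.mul_sum, rww_sum_poly d hd]
  · simp
  · have h1 := rgeom_natDegree d
    have h2 : ((∑ l ∈ range d, (Polynomial.X : Polynomial ℂ) ^ l) ^ 2).natDegree ≤ 2 * (d - 1) :=
      le_trans (Polynomial.natDegree_pow_le) (by omega)
    have h3 := Polynomial.natDegree_mul_le (p := (Polynomial.X : Polynomial ℂ))
      (q := (∑ l ∈ range d, (Polynomial.X : Polynomial ℂ) ^ l) ^ 2)
    rw [Polynomial.natDegree_X] at h3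
    omega

/-- moments at least two -/
theorem rz_sum2 (d : ℕ) (hd : 1 ≤ d) (j : ℕ) (hj : j + 2 ≤ d) :
    ∑ k ∈ range (2 * d), (-1 : ℂ) ^ k * (rSS d k * (starRingEnd ℂ) (rSS d k))
      * (rww d k - (starRingEnd ℂ) (rww d k)) ^ (j + 2) = 0 := by
  have h : ∀ k ∈ range (2 * d), (-1 : ℂ) ^ k * (rSS d k * (starRingEnd ℂ) (rSS d k))
      * (rww d k - (starRingEnd ℂ) (rww d k)) ^ (j + 2)
      = 2 * Complex.I * ((Polynomial.X : Polynomial ℂ) ^ (d - 1 - j) * (Polynomial.X + 1) ^ 2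
          * (Polynomial.X ^ 2 - 1) ^ j).eval (rww d k) := by
    intro k _
    rw [rSS_conj]
    unfold rSS
    rw [rz_id2 (rww_conj_mul d k) hd (rww_pow_d d hd k) (by rw [← pow_mul, mul_comm, pow_mul]; simp)
      j hj]
    simp
  rw [Finset.sum_congr rfl h, ← Finset.mul_sum, rww_sum_poly d hd]
  · have : d - 1 - j = (d - 2 - j) + 1 := by omega
    rw [this]
    simp [Polynomial.mul_coeff_zero, pow_succ]
  · have h1 : ((Polynomial.X : Polynomial ℂ) ^ (d - 1 - j)).natDegree = d - 1 - j :=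
      Polynomial.natDegree_X_pow _
    have h2 : (((Polynomial.X : Polynomial ℂ) + 1) ^ 2).natDegree ≤ 2 := by
      refine le_trans Polynomial.natDegree_pow_le ?_
      have : ((Polynomial.X : Polynomial ℂ) + 1).natDegree ≤ 1 := by compute_degree
      omega
    have h3 : (((Polynomial.X : Polynomial ℂ) ^ 2 - 1) ^ j).natDegree ≤ 2 * j := by
      refine le_trans Polynomial.natDegree_pow_le ?_
      have : ((Polynomial.X : Polynomial ℂ) ^ 2 - 1).natDegree ≤ 2 := by compute_degree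
      nlinarith
    have h4 := Polynomial.natDegree_mul_le (p := (Polynomial.X : Polynomial ℂ) ^ (d - 1 - j))
      (q := (Polynomial.X + 1) ^ 2)
    have h5 := Polynomial.natDegree_mul_le
      (p := (Polynomial.X : Polynomial ℂ) ^ (d - 1 - j) * (Polynomial.X + 1) ^ 2)
      (q := (Polynomial.X ^ 2 - 1) ^ j)
    omega


theorem rww_sum_one (d : ℕ) : ∑ k ∈ range (2 * d), rww d k ^ 0 = 2 * (d : ℂ) := by
  simp

/-- moment one -/
theorem rz_sum1 (d : ℕ) (hd : 1 ≤ d) :
    ∑ k ∈ range (2 * d), (-1 : ℂ) ^ k * (rSS d k * (starRingEnd ℂ) (rSS d k))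
      * (rww d k - (starRingEnd ℂ) (rww d k)) = 4 * d * Complex.I := by
  have h : ∀ k ∈ range (2 * d), (-1 : ℂ) ^ k * (rSS d k * (starRingEnd ℂ) (rSS d k))
      * (rww d k - (starRingEnd ℂ) (rww d k))
      = -Complex.I * (∑ l ∈ range d, (rww d k ^ (l + d + 1) + rww d k ^ (l + d)
          - rww d k ^ (l + 1) - rww d k ^ l)) := by
    intro k _
    rw [rSS_conj]
    unfold rSS
    rw [rz_id1 (rww_conj_mul d k) hd (rww_pow_d d hd k)]
    congr 1
    rw [Finset.sum_mul, Finset.sum_mul]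
    refine Finset.sum_congr rfl fun l _ => ?_
    ring
  rw [Finset.sum_congr rfl h, ← Finset.mul_sum, Finset.sum_comm]
  have h2 : ∀ l ∈ range d, ∑ k ∈ range (2 * d), (rww d k ^ (l + d + 1) + rww d k ^ (l + d)
          - rww d k ^ (l + 1) - rww d k ^ l)
      = (if l = d - 1 then -(2 * (d : ℂ)) else 0) + (if l = 0 then -(2 * (d : ℂ)) else 0) := by
    intro l hl
    have hl' := Finset.mem_range.1 hl
    rw [Finset.sum_sub_distrib, Finset.sum_sub_distrib, Finset.sum_add_distrib,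
      rww_orth d hd (l + d) (by omega) (by omega), rww_orth d hd (l + 1) (by omega) (by omega)]
    have e1 : ∑ k ∈ range (2 * d), rww d k ^ (l + d + 1)
        = if l = d - 1 then -(2 * (d : ℂ)) else 0 := by
      by_cases hc : l = d - 1
      · rw [if_pos hc]
        have : l + d + 1 = 2 * d := by omega
        rw [this]
        simp_rw [rww_pow_two_d d hd]
        simp
      · rw [if_neg hc]
        exact rww_orth d hd _ (by omega) (by omega)
    have e2 : ∑ k ∈ range (2 * d), rww d k ^ l = if l = 0 then (2 * (d : ℂ)) else 0 := by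
      by_cases hc : l = 0
      · rw [if_pos hc, hc]
        simp
      · rw [if_neg hc]
        exact rww_orth d hd _ (by omega) (by omega)
    rw [e1, e2]
    by_cases hc : l = 0
    · simp only [hc, if_true]; ring
    · simp [hc]
  rw [Finset.sum_congr rfl h2, Finset.sum_add_distrib, Finset.sum_ite_eq', Finset.sum_ite_eq',
    if_pos (Finset.mem_range.2 (by omega)), if_pos (Finset.mem_range.2 (by omega))]
  ring

/-- total mass -/
theorem rz_mass (d : ℕ) (hd : 1 ≤ d) :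
    ∑ k ∈ range (2 * d), (rSS d k * (starRingEnd ℂ) (rSS d k)) = 2 * d * d := by
  have h : ∀ k ∈ range (2 * d), rSS d k * (starRingEnd ℂ) (rSS d k)
      = ∑ l ∈ range d, ∑ m ∈ range d, rww d k ^ l * (starRingEnd ℂ) (rww d k) ^ m := by
    intro k _
    rw [rSS_conj]
    unfold rSS
    rw [Finset.sum_mul_sum]
  rw [Finset.sum_congr rfl h, Finset.sum_comm]
  have h2 : ∀ l ∈ range d, ∑ k ∈ range (2 * d), ∑ m ∈ range d,
      rww d k ^ l * (starRingEnd ℂ) (rww d k) ^ m = 2 * (d : ℂ) := by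
    intro l hl
    have hl' := Finset.mem_range.1 hl
    rw [Finset.sum_comm]
    have h3 : ∀ m ∈ range d, ∑ k ∈ range (2 * d), rww d k ^ l * (starRingEnd ℂ) (rww d k) ^ m
        = if m = l then 2 * (d : ℂ) else 0 := by
      intro m hm
      have hm' := Finset.mem_range.1 hm
      rcases lt_trichotomy m l with hlt | heq | hgt
      · rw [if_neg (by omega)]
        have : ∀ k ∈ range (2 * d), rww d k ^ l * (starRingEnd ℂ) (rww d k) ^ m
            = rww d k ^ (l - m) := by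
          intro k _
          have e : l = (l - m) + m := by omega
          calc rww d k ^ l * (starRingEnd ℂ) (rww d k) ^ m
              = rww d k ^ ((l - m) + m) * (starRingEnd ℂ) (rww d k) ^ m := by rw [← e]
            _ = rww d k ^ (l - m) * ((starRingEnd ℂ) (rww d k) * rww d k) ^ m := by
                rw [pow_add, mul_pow]; ring
            _ = _ := by rw [rww_conj_mul, one_pow, mul_one]
        rw [Finset.sum_congr rfl this]
        exact rww_orth d hd _ (by omega) (by omega)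
      · rw [if_pos heq, heq]
        have : ∀ k ∈ range (2 * d), rww d k ^ l * (starRingEnd ℂ) (rww d k) ^ l = 1 := by
          intro k _
          rw [← mul_pow, mul_comm, rww_conj_mul, one_pow]
        rw [Finset.sum_congr rfl this]
        simp
      · rw [if_neg (by omega)]
        have : ∀ k ∈ range (2 * d), rww d k ^ l * (starRingEnd ℂ) (rww d k) ^ m
            = (starRingEnd ℂ) (rww d k) ^ (m - l) := by
          intro k _
          have e : m = (m - l) + l := by omega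
          calc rww d k ^ l * (starRingEnd ℂ) (rww d k) ^ m
              = rww d k ^ l * (starRingEnd ℂ) (rww d k) ^ ((m - l) + l) := by rw [← e]
            _ = (starRingEnd ℂ) (rww d k) ^ (m - l) * ((starRingEnd ℂ) (rww d k) * rww d k) ^ l := by
                rw [pow_add, mul_pow]; ring
            _ = _ := by rw [rww_conj_mul, one_pow, mul_one]
        rw [Finset.sum_congr rfl this]
        exact rww_orth_conj d hd _ (by omega) (by omega)
    rw [Finset.sum_congr rfl h3, Finset.sum_ite_eq', if_pos hl]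
  rw [Finset.sum_congr rfl h2]
  simp
  ring


/-- the Riesz weights -/
noncomputable def rlam (d k : ℕ) : ℝ := Complex.normSq (rSS d k) / (2 * d)

/-- the Riesz nodes -/
noncomputable def rsn (d k : ℕ) : ℝ := (rww d k).im

theorem rlam_cast (d k : ℕ) :
    ((rlam d k : ℝ) : ℂ) = rSS d k * (starRingEnd ℂ) (rSS d k) / (2 * d) := by
  unfold rlam
  rw [Complex.mul_conj]
  push_cast
  rfl

theorem rsn_cast (d k : ℕ) :
    ((rsn d k : ℝ) : ℂ) = (rww d k - (starRingEnd ℂ) (rww d k)) / (2 * Complex.I) := by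
  rw [Complex.sub_conj]
  unfold rsn
  push_cast
  have := Complex.I_ne_zero
  field_simp

theorem rz_moment (d : ℕ) (hd : 1 ≤ d) (j : ℕ) (hj : j ≤ d) :
    ∑ k ∈ range (2 * d), (-1 : ℝ) ^ k * rlam d k * rsn d k ^ j = if j = 1 then 1 else 0 := by
  apply Complex.ofReal_injective
  have hd0 : (d : ℂ) ≠ 0 := by
    have : d ≠ 0 := by omega
    exact_mod_cast this
  have hI := Complex.I_ne_zero
  have h : ∀ k ∈ range (2 * d), (((-1 : ℝ) ^ k * rlam d k * rsn d k ^ j : ℝ) : ℂ)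
      = ((-1 : ℂ) ^ k * (rSS d k * (starRingEnd ℂ) (rSS d k))
        * (rww d k - (starRingEnd ℂ) (rww d k)) ^ j) / (2 * d * (2 * Complex.I) ^ j) := by
    intro k _
    push_cast
    rw [rlam_cast, rsn_cast, div_pow]
    field_simp
  rw [Complex.ofReal_sum, Finset.sum_congr rfl h, ← Finset.sum_div]
  rcases j with _ | _ | j
  · simp only [pow_zero, mul_one]
    rw [rz_sum0 d hd]
    simp
  · simp only [zero_add, pow_one]
    rw [rz_sum1 d hd]
    simp
    field_simp
    ring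
  · rw [rz_sum2 d hd j hj]
    simp

theorem rz_interp (d : ℕ) (hd : 1 ≤ d) (a : ℕ → ℝ) :
    a 1 = ∑ k ∈ range (2 * d),
      (-1 : ℝ) ^ k * rlam d k * ∑ j ∈ range (d + 1), a j * rsn d k ^ j := by
  simp_rw [Finset.mul_sum]
  rw [Finset.sum_comm]
  have h : ∀ j ∈ range (d + 1),
      ∑ k ∈ range (2 * d), (-1 : ℝ) ^ k * rlam d k * (a j * rsn d k ^ j)
        = if j = 1 then a 1 else 0 := by
    intro j hj
    have hj' := Finset.mem_range.1 hj
    have e : ∀ k ∈ range (2 * d), (-1 : ℝ) ^ k * rlam d k * (a j * rsn d k ^ j)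
        = a j * ((-1 : ℝ) ^ k * rlam d k * rsn d k ^ j) := by
      intro k _; ring
    rw [Finset.sum_congr rfl e, ← Finset.mul_sum, rz_moment d hd j (by omega)]
    by_cases hc : j = 1
    · simp [hc]
    · simp [hc]
  rw [Finset.sum_congr rfl h, Finset.sum_ite_eq', if_pos (Finset.mem_range.2 (by omega))]

theorem rlam_sum (d : ℕ) (hd : 1 ≤ d) : ∑ k ∈ range (2 * d), rlam d k = d := by
  apply Complex.ofReal_injective
  have hd0 : (d : ℂ) ≠ 0 := by
    have : d ≠ 0 := by omega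
    exact_mod_cast this
  rw [Complex.ofReal_sum]
  simp_rw [rlam_cast]
  rw [← Finset.sum_div, rz_mass d hd]
  push_cast
  field_simp

theorem rlam_nonneg (d k : ℕ) : 0 ≤ rlam d k := by
  unfold rlam
  exact div_nonneg (Complex.normSq_nonneg _) (by positivity)

theorem rww_norm (d k : ℕ) : ‖rww d k‖ = 1 := by
  unfold rww rzz
  rw [norm_pow, Complex.norm_exp_ofReal_mul_I, one_pow]

theorem rsn_abs (d k : ℕ) : |rsn d k| ≤ 1 := by
  unfold rsn
  exact le_trans (Complex.abs_im_le_norm _) (le_of_eq (rww_norm d k))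

theorem rww_zero (d : ℕ) : rww d 0 = rzz d := by
  unfold rww
  simp

theorem rsn_zero (d : ℕ) : rsn d 0 = Real.sin (Real.pi / (2 * d)) := by
  unfold rsn
  rw [rww_zero]
  unfold rzz
  rw [Complex.exp_ofReal_mul_I_im]

theorem rww_last (d : ℕ) (hd : 1 ≤ d) : rww d (2 * d - 1) = (starRingEnd ℂ) (rww d 0) := by
  rw [rww_zero]
  have hz : rzz d ≠ 0 := by
    intro h
    have := rzz_conj_mul d
    rw [h, mul_zero] at this
    exact zero_ne_one this
  have e : rww d (2 * d - 1) * rzz d = 1 := by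
    unfold rww
    rw [← pow_succ]
    have : 2 * (2 * d - 1) + 1 + 1 = d * 4 := by omega
    rw [this, pow_mul, rzz_pow_d d hd, Complex.I_pow_four]
  exact mul_right_cancel₀ hz (e.trans (rzz_conj_mul d).symm)

theorem rsn_last (d : ℕ) (hd : 1 ≤ d) : rsn d (2 * d - 1) = -Real.sin (Real.pi / (2 * d)) := by
  rw [← rsn_zero]
  unfold rsn
  rw [rww_last d hd, Complex.conj_im]

theorem rlam_last (d : ℕ) (hd : 1 ≤ d) : rlam d (2 * d - 1) = rlam d 0 := by
  unfold rlam
  congr 1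
  have : rSS d (2 * d - 1) = (starRingEnd ℂ) (rSS d 0) := by
    rw [rSS_conj]
    unfold rSS
    rw [rww_last d hd]
  rw [this, Complex.normSq_conj]

theorem rlam_zero_ge (d : ℕ) (hd : 1 ≤ d) : 4 * (d : ℝ) / Real.pi ^ 2 ≤ rlam d 0 := by
  have hdpos : (0 : ℝ) < d := by
    have : 0 < d := by omega
    exact_mod_cast this
  have g := geom_sum_mul (rww d 0) d
  rw [rww_pow_d d hd 0, pow_zero, mul_one] at g
  have g2 : Complex.normSq (rSS d 0) * Complex.normSq (rww d 0 - 1) = 2 := by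
    rw [← Complex.normSq_mul]
    unfold rSS
    rw [g]
    simp [Complex.normSq_apply]
    norm_num
  have hM : Complex.normSq (rww d 0 - 1) ≤ (Real.pi / (2 * d)) ^ 2 := by
    rw [Complex.normSq_eq_norm_sq, rww_zero]
    unfold rzz
    have := Real.norm_exp_I_mul_ofReal_sub_one_le (x := Real.pi / (2 * d))
    rw [mul_comm] at this
    have h0 : ‖(Real.pi / (2 * d) : ℝ)‖ = Real.pi / (2 * d) := by
      rw [Real.norm_eq_abs, abs_of_nonneg (by positivity)]
    rw [h0] at this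
    exact pow_le_pow_left₀ (norm_nonneg _) this 2
  have hN : 0 ≤ Complex.normSq (rSS d 0) := Complex.normSq_nonneg _
  unfold rlam
  rw [div_le_div_iff₀ (by positivity) (by positivity)]
  have h3 : Complex.normSq (rSS d 0) * Complex.normSq (rww d 0 - 1)
      ≤ Complex.normSq (rSS d 0) * (Real.pi / (2 * d)) ^ 2 := mul_le_mul_of_nonneg_left hM hN
  rw [g2] at h3
  have h4 : Complex.normSq (rSS d 0) * (Real.pi / (2 * d)) ^ 2 * (2 * d) ^ 2
      = Complex.normSq (rSS d 0) * Real.pi ^ 2 := by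
    field_simp
  have h5 : 2 * (2 * (d : ℝ)) ^ 2 ≤ Complex.normSq (rSS d 0) * (Real.pi / (2 * d)) ^ 2 * (2 * d) ^ 2 :=
    mul_le_mul_of_nonneg_right h3 (by positivity)
  rw [h4] at h5
  nlinarith


/-- M. Riesz interpolation inequality at the origin for algebraic polynomials of degree at most d -/
theorem riesz_ineq (d : ℕ) (hd : 1 ≤ d) (a : ℕ → ℝ)
    (hb : ∀ t : ℝ, -1 ≤ t → t ≤ 1 → |∑ j ∈ range (d + 1), a j * t ^ j| ≤ 1) :
    ∃ lam : ℝ, 4 * (d : ℝ) / Real.pi ^ 2 ≤ lam ∧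
      a 1 ≤ lam * ((∑ j ∈ range (d + 1), a j * (Real.sin (Real.pi / (2 * d))) ^ j)
        - (∑ j ∈ range (d + 1), a j * (-Real.sin (Real.pi / (2 * d))) ^ j)) + ((d : ℝ) - 2 * lam) := by
  refine ⟨rlam d 0, rlam_zero_ge d hd, ?_⟩
  obtain ⟨m, hm⟩ : ∃ m, 2 * d = 2 * m + 2 := ⟨d - 1, by omega⟩
  have hlast : 2 * d - 1 = 2 * m + 1 := by omega
  have hi := rz_interp d hd a
  have hs := rlam_sum d hd
  have l1 := rlam_last d hd
  have s1 := rsn_last d hd
  rw [hlast] at l1 s1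
  rw [hm, Finset.sum_range_succ, Finset.sum_range_succ'] at hi hs
  rw [l1] at hi hs
  rw [s1, rsn_zero] at hi
  have hsign : (-1 : ℝ) ^ (2 * m + 1) = -1 := by
    rw [pow_succ, pow_mul]; simp
  rw [hsign, pow_zero] at hi
  have hmid : ∑ k ∈ range (2 * m), (-1 : ℝ) ^ (k + 1) * rlam d (k + 1)
        * ∑ j ∈ range (d + 1), a j * rsn d (k + 1) ^ j
      ≤ ∑ k ∈ range (2 * m), rlam d (k + 1) := by
    refine Finset.sum_le_sum fun k _ => ?_
    have hab := abs_le.1 (rsn_abs d (k + 1))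
    have hp := abs_le.1 (hb (rsn d (k + 1)) hab.1 hab.2)
    have hl := rlam_nonneg d (k + 1)
    rcases neg_one_pow_eq_or ℝ (k + 1) with h | h
    · rw [h]; nlinarith [hp.1, hp.2]
    · rw [h]; nlinarith [hp.1, hp.2]
  rw [hi, ← hs]
  nlinarith [hmid]

end Vale.Agent.P047
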