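import Vale.Agent.P047.OneSided

/-!
# The sharp majority bound for fractional partitions into monochromatic subcubes.
-/

namespace Vale.Agent.P047

open Finset Polynomial

noncomputable section

variable {ι : Type*} [Fintype ι] [DecidableEq ι]

/-- `B_d = E |X_1 + ... + X_d|`. -/
def Bmaj (d : ℕ) : ℝ := expect (fun x : Fin d → ℤˣ => |∑ i, rv (x i)|)

/-- the linear functional `z^k ↦ |2k - d|` on polynomials, cut at degree `d` -/
def absFun (d : ℕ) (p : ℝ[X]) : ℝ := ∑ k ∈ range (d + 1), p.coeff k * |2 * (k : ℝ) - d|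

lemma absFun_sum {Q : Type*} [Fintype Q] (d : ℕ) (α : Q → ℝ) (p : Q → ℝ[X]) :
    absFun d (∑ q, C (α q) * p q) = ∑ q, α q * absFun d (p q) := by
  unfold absFun
  simp_rw [Polynomial.finset_sum_coeff, Polynomial.coeff_C_mul, Finset.sum_mul, Finset.mul_sum]
  rw [Finset.sum_comm]
  apply Finset.sum_congr rfl
  intro q _
  apply Finset.sum_congr rfl
  intro k _
  ring

/-- tilt identity for a fractional partition of the cube -/
lemma tilt_partition {Q : Type*} [Fintype Q] (ρ : Q → ι → Option ℤˣ) (α : Q → ℝ)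
    (hcover : ∀ x, ∑ q, α q * ind (ρ q) x = 1) (δ : ℝ) :
    ∑ q, α q * ((1 / 2) ^ codim (ρ q) * ((1 + δ) ^ npos (ρ q) * (1 - δ) ^ nneg (ρ q))) = 1 := by
  have h1 : ∑ q, α q * ((1 / 2) ^ codim (ρ q) * ((1 + δ) ^ npos (ρ q) * (1 - δ) ^ nneg (ρ q)))
      = expect (fun x : ι → ℤˣ => ∑ q, α q * (ind (ρ q) x * tilt δ x)) := by
    rw [expect_sum]
    apply Finset.sum_congr rfl
    intro q _
    rw [expect_const_mul, expect_ind_tilt, prod_tilt_sig]
  rw [h1]
  have h2 : (fun x : ι → ℤˣ => ∑ q, α q * (ind (ρ q) x * tilt δ x)) = tilt δ := by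
    funext x
    have : ∑ q, α q * (ind (ρ q) x * tilt δ x) = (∑ q, α q * ind (ρ q) x) * tilt δ x := by
      rw [Finset.sum_mul]
      apply Finset.sum_congr rfl
      intro q _; ring
    rw [this, hcover, one_mul]
  rw [h2, expect_tilt]

lemma aux_id (z a : ℝ) (k l m : ℕ) (hz : 0 < 1 + z) :
    a * (z ^ k * (1 + z) ^ m) = (1 + z) ^ m * (1 + z) ^ (k + l) *
      (a * ((1 / 2) ^ (k + l) * ((2 * z / (1 + z)) ^ k * (2 / (1 + z)) ^ l))) := by
  have h4 : (1 + z) ^ k ≠ 0 := by positivity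
  have h5 : (1 + z) ^ l ≠ 0 := by positivity
  simp only [div_pow, mul_pow, pow_add, one_pow]
  field_simp

/-- the generating polynomial identity of a fractional partition of width at most `d` -/
lemma poly_partition {Q : Type*} [Fintype Q] (ρ : Q → ι → Option ℤˣ) (α : Q → ℝ)
    (hcover : ∀ x, ∑ q, α q * ind (ρ q) x = 1) (d : ℕ) (hd : ∀ q, codim (ρ q) ≤ d) :
    ∑ q, C (α q) * (X ^ npos (ρ q) * (1 + X) ^ (d - codim (ρ q))) = ((1 + X) ^ d : ℝ[X]) := by
  apply Polynomial.eq_of_infinite_eval_eq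
  apply Set.Infinite.mono _ (Set.Ici_infinite (0 : ℝ))
  intro z hz
  have hz0 : (0 : ℝ) ≤ z := hz
  have hz1 : (0 : ℝ) < 1 + z := by linarith
  simp only [Set.mem_setOf_eq]
  rw [Polynomial.eval_finset_sum]
  simp only [eval_mul, eval_C, eval_pow, eval_X, eval_add, eval_one]
  have key := tilt_partition ρ α hcover ((z - 1) / (1 + z))
  have e1 : 1 + (z - 1) / (1 + z) = 2 * z / (1 + z) := by field_simp; ring
  have e2 : 1 - (z - 1) / (1 + z) = 2 / (1 + z) := by field_simp; ring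
  rw [e1, e2] at key
  calc ∑ q, α q * (z ^ npos (ρ q) * (1 + z) ^ (d - codim (ρ q)))
      = (1 + z) ^ d * ∑ q, α q * ((1 / 2) ^ codim (ρ q) *
          ((2 * z / (1 + z)) ^ npos (ρ q) * (2 / (1 + z)) ^ nneg (ρ q))) := by
        rw [Finset.mul_sum]
        apply Finset.sum_congr rfl
        intro q _
        have hc := codim_eq (ρ q)
        have hsplit : (1 + z) ^ d = (1 + z) ^ (d - codim (ρ q)) * (1 + z) ^ codim (ρ q) := by
          rw [← pow_add]; congr 1; have := hd q; omega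
        rw [hsplit, hc]
        exact aux_id z (α q) _ _ _ hz1
    _ = (1 + z) ^ d := by rw [key, mul_one]

/-- the signed companion of `absFun` -/
def linFun (d : ℕ) (p : ℝ[X]) : ℝ := ∑ k ∈ range (d + 1), p.coeff k * (2 * (k : ℝ) - d)

lemma linFun_eq (d : ℕ) (p : ℝ[X]) (hp : p.natDegree < d + 1) :
    linFun d p = 2 * (derivative p).eval 1 - d * p.eval 1 := by
  rw [Polynomial.eval_eq_sum_range' hp, Polynomial.derivative_eval,
    Polynomial.sum_over_range' p (by intro n; simp) (d + 1) hp]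
  unfold linFun
  rw [Finset.mul_sum, Finset.mul_sum, ← Finset.sum_sub_distrib]
  apply Finset.sum_congr rfl
  intro k _
  simp only [one_pow]
  ring

lemma abs_linFun_le (d : ℕ) (p : ℝ[X]) (hp : ∀ k, 0 ≤ p.coeff k) : |linFun d p| ≤ absFun d p := by
  unfold linFun absFun
  refine (Finset.abs_sum_le_sum_abs _ _).trans ?_
  apply Finset.sum_le_sum
  intro k _
  rw [abs_mul, abs_of_nonneg (hp k)]

lemma coeff_gen_nonneg (a m k : ℕ) : 0 ≤ (X ^ a * (1 + X) ^ m : ℝ[X]).coeff k := by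
  rw [Polynomial.coeff_X_pow_mul']
  split_ifs
  · rw [Polynomial.coeff_one_add_X_pow]; positivity
  · exact le_refl _

lemma natDegree_gen (a m : ℕ) : (X ^ a * (1 + X) ^ m : ℝ[X]).natDegree ≤ a + m := by
  refine (natDegree_mul_le).trans ?_
  refine add_le_add (natDegree_X_pow_le a) ?_
  refine (natDegree_pow_le).trans ?_
  have h1 : (1 + X : ℝ[X]).natDegree ≤ 1 := by
    refine (natDegree_add_le _ _).trans ?_
    simp
  calc m * (1 + X : ℝ[X]).natDegree ≤ m * 1 := Nat.mul_le_mul_left m h1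
    _ = m := mul_one m

lemma linFun_gen (a b m : ℕ) :
    linFun (a + b + m) (X ^ a * (1 + X) ^ m) = 2 ^ m * ((a : ℝ) - b) := by
  rw [linFun_eq _ _ (by have := natDegree_gen a m; omega)]
  simp only [derivative_mul, derivative_X_pow, derivative_pow, derivative_add, derivative_one,
    derivative_X, eval_add, eval_mul, eval_pow, eval_X, eval_one, eval_C, one_pow, zero_add,
    mul_one, one_mul, eval_natCast, map_natCast]
  rcases m with _ | m
  · simp; ring
  · simp only [Nat.add_sub_cancel, pow_succ]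
    push_cast
    norm_num
    ring

lemma absFun_gen_ge (a b m : ℕ) :
    2 ^ m * |(a : ℝ) - b| ≤ absFun (a + b + m) (X ^ a * (1 + X) ^ m) := by
  have h := abs_linFun_le (a + b + m) (X ^ a * (1 + X) ^ m) (coeff_gen_nonneg a m)
  rw [linFun_gen, abs_mul, abs_of_nonneg (by positivity : (0 : ℝ) ≤ 2 ^ m)] at h
  exact h

lemma absFun_X_pow (a b : ℕ) : absFun (a + b) (X ^ a) = |(a : ℝ) - b| := by
  unfold absFun
  simp only [Polynomial.coeff_X_pow]
  rw [Finset.sum_eq_single a]
  · simp only [if_true, one_mul]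
    congr 1
    push_cast
    ring
  · intro k _ hk
    simp [hk]
  · intro h
    exact absurd (Finset.mem_range.2 (by omega)) h

/-- weighted absolute imbalance of the cubes of a fractional partition of width at most `d` -/
lemma sum_abs_le {Q : Type*} [Fintype Q] (ρ : Q → ι → Option ℤˣ) (α : Q → ℝ) (hα : ∀ q, 0 ≤ α q)
    (hcover : ∀ x, ∑ q, α q * ind (ρ q) x = 1) (d : ℕ) (hd : ∀ q, codim (ρ q) ≤ d) :
    ∑ q, α q * (1 / 2) ^ codim (ρ q) * |(npos (ρ q) : ℝ) - nneg (ρ q)|
      ≤ absFun d ((1 + X) ^ d) / 2 ^ d := by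
  rw [← poly_partition ρ α hcover d hd, absFun_sum, le_div_iff₀ (by positivity), Finset.sum_mul]
  apply Finset.sum_le_sum
  intro q _
  have hc := codim_eq (ρ q)
  have hdq : npos (ρ q) + nneg (ρ q) + (d - codim (ρ q)) = d := by have := hd q; omega
  have h := absFun_gen_ge (npos (ρ q)) (nneg (ρ q)) (d - codim (ρ q))
  rw [hdq] at h
  have h2 : (1 / 2 : ℝ) ^ codim (ρ q) * 2 ^ d = 2 ^ (d - codim (ρ q)) := by
    have : (2 : ℝ) ^ d = 2 ^ (d - codim (ρ q)) * 2 ^ codim (ρ q) := by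
      rw [← pow_add]; congr 1; have := hd q; omega
    rw [this, one_div, inv_pow]
    field_simp
  calc α q * (1 / 2) ^ codim (ρ q) * |(npos (ρ q) : ℝ) - nneg (ρ q)| * 2 ^ d
      = α q * (((1 / 2 : ℝ) ^ codim (ρ q) * 2 ^ d) * |(npos (ρ q) : ℝ) - nneg (ρ q)|) := by ring
    _ = α q * (2 ^ (d - codim (ρ q)) * |(npos (ρ q) : ℝ) - nneg (ρ q)|) := by rw [h2]
    _ ≤ α q * absFun d (X ^ npos (ρ q) * (1 + X) ^ (d - codim (ρ q))) :=
        mul_le_mul_of_nonneg_left h (hα q)

/-- the point cube -/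
def ptCube {d : ℕ} (y : Fin d → ℤˣ) : Fin d → Option ℤˣ := fun i => some (y i)

lemma ind_ptCube {d : ℕ} (y x : Fin d → ℤˣ) : ind (ptCube y) x = if x = y then 1 else 0 := by
  classical
  unfold ind
  have : InCube (ptCube y) x ↔ x = y := by
    constructor
    · intro h
      funext i
      exact h i (y i) rfl
    · rintro rfl i s hs
      exact Option.some.inj hs
  simp only [this]

lemma codim_ptCube {d : ℕ} (y : Fin d → ℤˣ) : codim (ptCube y) = d := by
  unfold codim ptCube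
  simp

lemma Bmaj_eq (d : ℕ) : Bmaj d = absFun d ((1 + X) ^ d) / 2 ^ d := by
  have hcover : ∀ x : Fin d → ℤˣ, ∑ y : Fin d → ℤˣ, (1 : ℝ) * ind (ptCube y) x = 1 := by
    intro x
    simp only [ind_ptCube, one_mul]
    rw [Finset.sum_ite_eq]
    simp
  have hp := poly_partition (fun y : Fin d → ℤˣ => ptCube y) (fun _ => (1 : ℝ)) hcover d
    (fun y => le_of_eq (codim_ptCube y))
  rw [← hp, absFun_sum]
  unfold Bmaj expect
  rw [Fintype.card_fin]
  congr 1
  apply Finset.sum_congr rfl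
  intro y _
  have hc := codim_eq (ptCube y)
  rw [codim_ptCube] at hc
  have h1 : ∑ i, rv (y i) = (npos (ptCube y) : ℝ) - nneg (ptCube y) := by
    rw [← sum_sig]
    rfl
  show |∑ i, rv (y i)| = _
  rw [h1, codim_ptCube, Nat.sub_self, pow_zero, mul_one, one_mul]
  have key : ∀ a b D : ℕ, D = a + b → absFun D (X ^ a) = |(a : ℝ) - b| := by
    rintro a b _ rfl
    exact absFun_X_pow a b
  exact (key _ _ _ hc).symm

/-- Sharp bound: for a fractional partition into monochromatic subcubes of codimension at most `d`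
the level-one sum is at most that of the majority on `d` bits. -/
theorem levelOne_le_Bmaj {Q : Type*} [Fintype Q] (f : (ι → ℤˣ) → ℤˣ) (ρ : Q → ι → Option ℤˣ)
    (α : Q → ℝ) (hα : ∀ q, 0 ≤ α q)
    (hmono : ∀ q x y, InCube (ρ q) x → InCube (ρ q) y → f x = f y)
    (hcover : ∀ x, ∑ q, α q * ind (ρ q) x = 1) (d : ℕ) (hd : ∀ q, codim (ρ q) ≤ d) :
    |levelOne f| ≤ Bmaj d := by
  rw [Bmaj_eq]
  refine le_trans ?_ (sum_abs_le ρ α hα hcover d hd)
  have hW : levelOne f = ∑ q, α q * (1 / 2) ^ codim (ρ q) * rv (f (basePoint (ρ q))) *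
      ((npos (ρ q) : ℝ) - nneg (ρ q)) := by
    unfold levelOne
    simp_rw [fourier_eq_sum f ρ α hmono hcover, Finset.prod_singleton]
    rw [Finset.sum_comm]
    apply Finset.sum_congr rfl
    intro q _
    rw [← Finset.mul_sum, sum_sig]
  rw [hW]
  refine (Finset.abs_sum_le_sum_abs _ _).trans ?_
  apply Finset.sum_le_sum
  intro q _
  rw [abs_mul, abs_mul, rv_abs, mul_one, abs_of_nonneg (mul_nonneg (hα q) (by positivity))]

end

end Vale.Agent.P047
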