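import Vale.Agent.P047.Oddize

/-!
# The tensor power argument for the level-one sum.
-/

namespace Vale.Agent.P047

open Finset

noncomputable section

/-- `Ach w D`: some balanced Boolean function on finitely many variables has level-one sum `w`
and degree at most `D`. -/
def Ach (w : ℝ) (D : ℕ) : Prop :=
  ∃ (m : ℕ) (F : (Fin m → ℤˣ) → ℤˣ), fourier F ∅ = 0 ∧ levelOne F = w ∧ deg F ≤ D

lemma Ach.of_fintype {ι : Type*} [Fintype ι] [DecidableEq ι] (F : (ι → ℤˣ) → ℤˣ) {w : ℝ} {D : ℕ}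
    (h0 : fourier F ∅ = 0) (h1 : levelOne F = w) (h2 : deg F ≤ D) : Ach w D :=
  ⟨Fintype.card ι, reindex (Fintype.equivFin ι) F, by rw [fourier_reindex_empty, h0],
    by rw [levelOne_reindex, h1], le_trans (deg_reindex_le _ _) h2⟩

lemma Ach.mul {w₁ w₂ : ℝ} {D₁ D₂ : ℕ} (h₁ : Ach w₁ D₁) (h₂ : Ach w₂ D₂) :
    Ach (w₁ * w₂) (D₁ * D₂) := by
  obtain ⟨m₁, F₁, a₁, b₁, c₁⟩ := h₁
  obtain ⟨m₂, F₂, a₂, b₂, c₂⟩ := h₂
  refine Ach.of_fintype (comp F₁ F₂) ?_ ?_ ?_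
  · rw [fourier_comp_empty _ _ a₂, a₁]
  · rw [levelOne_comp _ _ a₂, b₁, b₂]
  · exact le_trans (deg_comp_le _ _) (Nat.mul_le_mul c₁ c₂)

lemma Ach.pow {w : ℝ} {D : ℕ} (h : Ach w D) (k : ℕ) : Ach (w ^ (k + 1)) (D ^ (k + 1)) := by
  induction k with
  | zero => simpa using h
  | succ k ih =>
    rw [pow_succ w (k + 1), pow_succ D (k + 1)]
    exact ih.mul h

lemma exists_sign (a : ℝ) : ∃ s : ℤˣ, rv s * a = |a| := by
  rcases le_total 0 a with h | h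
  · exact ⟨1, by simp [abs_of_nonneg h]⟩
  · exact ⟨-1, by simp [abs_of_nonpos h]⟩

lemma Ach.of_fun {n : ℕ} (f : (Fin n → ℤˣ) → ℤˣ) :
    Ach (levelOne f + |fourier f ∅|) (deg f + 1) := by
  obtain ⟨s, hs⟩ := exists_sign (fourier f ∅)
  exact Ach.of_fintype (oddize s f) (fourier_oddize_empty s f) (by rw [levelOne_oddize, hs])
    (deg_oddize_le s f)

lemma Ach.of_fun_odd {n : ℕ} (f : (Fin n → ℤˣ) → ℤˣ) (hodd : Odd (deg f)) :
    Ach (levelOne f + |fourier f ∅|) (deg f) := by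
  obtain ⟨s, hs⟩ := exists_sign (fourier f ∅)
  exact Ach.of_fintype (oddize s f) (fourier_oddize_empty s f) (by rw [levelOne_oddize, hs])
    (deg_oddize_le_of_odd s f hodd)

lemma sqrt_pow_nat (x : ℝ) (hx : 0 ≤ x) (k : ℕ) : Real.sqrt (x ^ k) = (Real.sqrt x) ^ k := by
  rw [Real.sqrt_eq_iff_mul_self_eq (pow_nonneg hx k) (pow_nonneg (Real.sqrt_nonneg x) k),
    ← mul_pow, Real.mul_self_sqrt hx]

/-- The tensor power trick. -/
lemma Ach.le_sqrt {C : ℝ}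
    (hC : ∀ (n : ℕ) (f : (Fin n → ℤˣ) → ℤˣ), levelOne f ≤ C * Real.sqrt (deg f))
    {w : ℝ} {D : ℕ} (h : Ach w D) : w ≤ Real.sqrt D := by
  by_contra hlt
  have hlt : Real.sqrt D < w := not_le.mp hlt
  have hr0 : 0 ≤ Real.sqrt D := Real.sqrt_nonneg _
  have hw : 0 < w := lt_of_le_of_lt hr0 hlt
  have hbound : ∀ k : ℕ, w ^ (k + 1) ≤ |C| * (Real.sqrt D) ^ (k + 1) := by
    intro k
    obtain ⟨m, F, _, b, c⟩ := h.pow k
    have h1 := hC m F
    rw [b] at h1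
    have h2 : Real.sqrt (deg F) ≤ (Real.sqrt D) ^ (k + 1) := by
      rw [← sqrt_pow_nat _ (Nat.cast_nonneg D)]
      apply Real.sqrt_le_sqrt
      exact_mod_cast c
    calc w ^ (k + 1) ≤ C * Real.sqrt (deg F) := h1
      _ ≤ |C| * Real.sqrt (deg F) := mul_le_mul_of_nonneg_right (le_abs_self C) (Real.sqrt_nonneg _)
      _ ≤ |C| * (Real.sqrt D) ^ (k + 1) := mul_le_mul_of_nonneg_left h2 (abs_nonneg C)
  rcases eq_or_lt_of_le hr0 with h0 | hpos
  · have := hbound 0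
    rw [← h0] at this
    simp at this
    linarith
  · have hq : 1 < w / Real.sqrt D := by rw [one_lt_div hpos]; exact hlt
    obtain ⟨k, hk⟩ := pow_unbounded_of_one_lt |C| hq
    have h3 : (w / Real.sqrt D) ^ (k + 1) ≤ |C| := by
      rw [div_pow, div_le_iff₀ (pow_pos hpos _)]
      exact hbound k
    have h4 : (w / Real.sqrt D) ^ k ≤ (w / Real.sqrt D) ^ (k + 1) :=
      pow_le_pow_right₀ hq.le (Nat.le_succ k)
    linarith

end

end Vale.Agent.P047
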