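import Vale.Agent.P047.Bias
import Vale.Agent.P047.OdeCmp
import Vale.Agent.P047.Riesz

/-!
# `M(d) ≤ c d` with `c < 1` (P047)
-/

set_option linter.unusedSectionVars false

namespace Vale.Agent.P047

open Finset

noncomputable section

variable {ι : Type*} [Fintype ι] [DecidableEq ι]

/-- the interpolation node `sin (π / (2 d))` -/
def tauN (d : ℕ) : ℝ := Real.sin (Real.pi / (2 * d))

/-- the exponent `2 d τ / (1 - τ^2)` -/
def KN (d : ℕ) : ℝ := 2 * ((d : ℝ) / (1 - tauN d ^ 2)) * tauN d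

lemma tauN_bounds {d : ℕ} (hd : 2 ≤ d) :
    0 ≤ tauN d ∧ tauN d ≤ Real.pi / (2 * d) ∧ Real.pi / (2 * d) < 1 := by
  have hd' : (2 : ℝ) ≤ d := by exact_mod_cast hd
  have hx0 : 0 < Real.pi / (2 * d) := by positivity
  have hx1 : Real.pi / (2 * d) < 1 := by
    rw [div_lt_one (by positivity)]
    linarith [Real.pi_lt_d2]
  refine ⟨?_, ?_, hx1⟩
  · apply Real.sin_nonneg_of_nonneg_of_le_pi hx0.le
    linarith [Real.pi_gt_three]
  · exact Real.sin_le hx0.le

theorem levelOne_le_general (f : (ι → ℤˣ) → ℤˣ) {d : ℕ} (hd : 2 ≤ d) (hdeg : deg f ≤ d) :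
    levelOne f ≤ d - 16 * d / (Real.pi ^ 2 * (Real.exp (KN d) + 1)) := by
  obtain ⟨t0, t1, t2⟩ := tauN_bounds hd
  have hd' : (2 : ℝ) ≤ d := by exact_mod_cast hd
  have hτ1 : tauN d < 1 := lt_of_le_of_lt t1 t2
  have hv : 0 < 1 - tauN d ^ 2 := by nlinarith
  have hK0 : 0 ≤ KN d := by unfold KN; positivity
  have hk1 : 1 ≤ Real.exp (KN d) := Real.one_le_exp hK0
  have hpi : 9 < Real.pi ^ 2 := by nlinarith [Real.pi_gt_three]
  by_cases hne : ∃ x y, f x ≠ f y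
  · -- the main case
    have hb : ∀ t : ℝ, -1 ≤ t → t ≤ 1 → |∑ j ∈ range (d + 1), ac f j * t ^ j| ≤ 1 := by
      intro t h1 h2
      rw [← pb_eq_poly f hdeg t]
      have := pb_sq_le_one f (abs_le.2 ⟨h1, h2⟩)
      exact abs_le_one_iff_mul_self_le_one.2 (by nlinarith)
    obtain ⟨lam, hl1, hl2⟩ := riesz_ineq d (by omega) (ac f) hb
    rw [← pb_eq_poly f hdeg, ← pb_eq_poly f hdeg, ac_one] at hl2
    have hode := ode_bound ((d : ℝ) / (1 - tauN d ^ 2)) (pb f) (pb' f) (tauN d) t0 (by positivity)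
      (pb_hasDerivAt f)
      (by
        intro t ht
        have : |t| < 1 := lt_of_le_of_lt ht hτ1
        have h3 := pb_sq_lt_one f this hne
        exact (sq_lt_one_iff_abs_lt_one _).1 h3)
      (by
        intro t ht
        have ht1 : |t| ≤ 1 := le_trans ht hτ1.le
        have h3 := diff_ineq f hdeg ht1
        have h4 : t ^ 2 ≤ tauN d ^ 2 := by
          rw [← sq_abs t]
          exact pow_le_pow_left₀ (abs_nonneg t) ht 2
        have h5 : (1 - tauN d ^ 2) * |pb' f t| ≤ d * (1 - pb f t ^ 2) :=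
          le_trans (mul_le_mul_of_nonneg_right (by linarith) (abs_nonneg _)) h3
        rw [div_mul_eq_mul_div, le_div_iff₀ hv]
        linarith)
    change (Real.exp (KN d) + 1) * (pb f (tauN d) - pb f (-tauN d)) ≤ 2 * (Real.exp (KN d) - 1) at hode
    change levelOne f ≤ lam * (pb f (tauN d) - pb f (-tauN d)) + ((d : ℝ) - 2 * lam) at hl2
    set k := Real.exp (KN d) with hk
    set Δ := pb f (tauN d) - pb f (-tauN d) with hΔ
    have hk0 : 0 < k + 1 := by linarith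
    have hlam0 : 0 ≤ lam := le_trans (by positivity) hl1
    have h6 : Δ ≤ 2 - 4 / (k + 1) := by
      rw [le_sub_iff_add_le, ← le_sub_iff_add_le', div_le_iff₀ hk0]
      nlinarith
    have h7 : lam * Δ ≤ lam * (2 - 4 / (k + 1)) := mul_le_mul_of_nonneg_left h6 hlam0
    have h8 : 16 * (d : ℝ) / (Real.pi ^ 2 * (k + 1)) ≤ lam * (4 / (k + 1)) := by
      have : 16 * (d : ℝ) / (Real.pi ^ 2 * (k + 1)) = (4 * d / Real.pi ^ 2) * (4 / (k + 1)) := by
        field_simp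
        ring
      rw [this]
      exact mul_le_mul_of_nonneg_right hl1 (by positivity)
    nlinarith
  · have hc : ∀ x y, f x = f y := by
      intro x y
      by_contra h
      exact hne ⟨x, y, h⟩
    rw [levelOne_eq_zero_of_const f hc, sub_nonneg, div_le_iff₀ (by positivity)]
    have h9 : (16 : ℝ) ≤ Real.pi ^ 2 * (Real.exp (KN d) + 1) := by nlinarith
    have h10 : (0 : ℝ) ≤ d := by linarith
    nlinarith

lemma KN_le {d m : ℕ} (hm : 2 ≤ m) (hd : m ≤ d) :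
    KN d ≤ Real.pi / (1 - (Real.pi / (2 * m)) ^ 2) := by
  obtain ⟨t0, t1, t2⟩ := tauN_bounds (le_trans hm hd)
  obtain ⟨-, -, s2⟩ := tauN_bounds hm
  have hm' : (2 : ℝ) ≤ m := by exact_mod_cast hm
  have hd' : (m : ℝ) ≤ d := by exact_mod_cast hd
  have hd0 : (0 : ℝ) < d := by linarith
  set x := Real.pi / (2 * (d : ℝ)) with hx
  set y := Real.pi / (2 * (m : ℝ)) with hy
  have hx0 : 0 < x := by positivity
  have hxy : x ≤ y := by
    rw [hx, hy]
    apply div_le_div_of_nonneg_left Real.pi_pos.le (by positivity) (by linarith)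
  have h1 : 0 < 1 - y ^ 2 := by nlinarith
  have h2 : 1 - y ^ 2 ≤ 1 - x ^ 2 := by nlinarith
  have h3 : 1 - x ^ 2 ≤ 1 - tauN d ^ 2 := by nlinarith
  have h4 : (d : ℝ) / (1 - tauN d ^ 2) ≤ d / (1 - y ^ 2) :=
    div_le_div_of_nonneg_left hd0.le h1 (by linarith)
  have h5 : 2 * (d : ℝ) * x = Real.pi := by
    rw [hx]; field_simp
  calc KN d = 2 * ((d : ℝ) / (1 - tauN d ^ 2)) * tauN d := rfl
    _ ≤ 2 * ((d : ℝ) / (1 - y ^ 2)) * x := by
        apply mul_le_mul (by linarith) t1 t0 (by positivity)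
    _ = (2 * (d : ℝ) * x) / (1 - y ^ 2) := by ring
    _ = Real.pi / (1 - y ^ 2) := by rw [h5]

lemma levelOne_le_of_exp_le (f : (ι → ℤˣ) → ℤˣ) {d : ℕ} (hd : 2 ≤ d) (hdeg : deg f ≤ d)
    {B κ : ℝ} (hB : Real.exp (KN d) ≤ B) (hκ : κ * (Real.pi ^ 2 * (B + 1)) ≤ 16) (hκ0 : 0 ≤ κ) :
    levelOne f ≤ (1 - κ) * d := by
  have h := levelOne_le_general f hd hdeg
  have hd0 : (0 : ℝ) ≤ d := Nat.cast_nonneg d
  have hk : 0 < Real.exp (KN d) := Real.exp_pos _
  have hpos : 0 < Real.pi ^ 2 * (Real.exp (KN d) + 1) := by positivity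
  have h1 : κ * d ≤ 16 * d / (Real.pi ^ 2 * (Real.exp (KN d) + 1)) := by
    rw [le_div_iff₀ hpos]
    have h2 : Real.pi ^ 2 * (Real.exp (KN d) + 1) ≤ Real.pi ^ 2 * (B + 1) :=
      mul_le_mul_of_nonneg_left (by linarith) (by positivity)
    have h3 : κ * (Real.pi ^ 2 * (Real.exp (KN d) + 1)) ≤ 16 :=
      le_trans (mul_le_mul_of_nonneg_left h2 hκ0) hκ
    nlinarith
  linarith

lemma pi_sq_lt : Real.pi ^ 2 < 9.87 := by
  have h1 := Real.pi_lt_d4
  have h2 := Real.pi_gt_three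
  nlinarith

lemma exp_four_lt : Real.exp 4 < 54.6 := by
  have h : Real.exp 4 = Real.exp 1 ^ 4 := by
    rw [← Real.exp_nat_mul]; norm_num
  rw [h]
  calc Real.exp 1 ^ 4 < (2.7182818286 : ℝ) ^ 4 :=
        pow_lt_pow_left₀ Real.exp_one_lt_d9 (Real.exp_pos 1).le (by norm_num)
    _ < 54.6 := by norm_num

lemma exp_seven_half_lt : Real.exp (7 / 2) < 33.2 := by
  have h : Real.exp (7 / 2) ^ 2 = Real.exp 1 ^ 7 := by
    rw [← Real.exp_nat_mul, ← Real.exp_nat_mul]; norm_num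
  have h2 : Real.exp 1 ^ 7 < (33.2 : ℝ) ^ 2 := by
    calc Real.exp 1 ^ 7 < (2.7182818286 : ℝ) ^ 7 :=
          pow_lt_pow_left₀ Real.exp_one_lt_d9 (Real.exp_pos 1).le (by norm_num)
      _ < (33.2 : ℝ) ^ 2 := by norm_num
  rw [← h] at h2
  exact lt_of_pow_lt_pow_left₀ 2 (by norm_num) h2

lemma exp_nineteen_sixth_lt : Real.exp (19 / 6) < 23.8 := by
  have h : Real.exp (19 / 6) ^ 6 = Real.exp 1 ^ 19 := by
    rw [← Real.exp_nat_mul, ← Real.exp_nat_mul]; norm_num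
  have h2 : Real.exp 1 ^ 19 < (23.8 : ℝ) ^ 6 := by
    calc Real.exp 1 ^ 19 < (2.7182818286 : ℝ) ^ 19 :=
          pow_lt_pow_left₀ Real.exp_one_lt_d9 (Real.exp_pos 1).le (by norm_num)
      _ < (23.8 : ℝ) ^ 6 := by norm_num
  rw [← h] at h2
  exact lt_of_pow_lt_pow_left₀ 6 (by norm_num) h2

theorem levelOne_le_four (f : (ι → ℤˣ) → ℤˣ) {d : ℕ} (hd : 4 ≤ d) (hdeg : deg f ≤ d) :
    levelOne f ≤ 49 / 50 * d := by
  have hK : KN d ≤ 4 := by
    refine le_trans (KN_le (m := 4) (by norm_num) hd) ?_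
    have h1 := Real.pi_lt_d4
    have h2 := Real.pi_gt_three
    have h3 := pi_sq_lt
    have h4 : (0 : ℝ) < 1 - (Real.pi / (2 * (4 : ℕ))) ^ 2 := by
      push_cast; nlinarith
    rw [div_le_iff₀ h4]
    push_cast
    nlinarith
  have hB : Real.exp (KN d) ≤ 54.6 := le_trans (Real.exp_le_exp.2 hK) exp_four_lt.le
  have := levelOne_le_of_exp_le f (by omega) hdeg hB (κ := 1 / 50)
    (by nlinarith [pi_sq_lt]) (by norm_num)
  linarith

theorem levelOne_le_five (f : (ι → ℤˣ) → ℤˣ) {d : ℕ} (hd : 5 ≤ d) (hdeg : deg f ≤ d) :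
    levelOne f ≤ 24 / 25 * d := by
  have hK : KN d ≤ 7 / 2 := by
    refine le_trans (KN_le (m := 5) (by norm_num) hd) ?_
    have h1 := Real.pi_lt_d4
    have h2 := Real.pi_gt_three
    have h3 := pi_sq_lt
    have h4 : (0 : ℝ) < 1 - (Real.pi / (2 * (5 : ℕ))) ^ 2 := by
      push_cast; nlinarith
    rw [div_le_iff₀ h4]
    push_cast
    nlinarith
  have hB : Real.exp (KN d) ≤ 33.2 := le_trans (Real.exp_le_exp.2 hK) exp_seven_half_lt.le
  have := levelOne_le_of_exp_le f (by omega) hdeg hB (κ := 1 / 25)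
    (by nlinarith [pi_sq_lt]) (by norm_num)
  linarith

theorem levelOne_le_twenty (f : (ι → ℤˣ) → ℤˣ) {d : ℕ} (hd : 20 ≤ d) (hdeg : deg f ≤ d) :
    levelOne f ≤ 47 / 50 * d := by
  have hK : KN d ≤ 19 / 6 := by
    refine le_trans (KN_le (m := 20) (by norm_num) hd) ?_
    have h1 := Real.pi_lt_d4
    have h2 := Real.pi_gt_three
    have h3 := pi_sq_lt
    have h4 : (0 : ℝ) < 1 - (Real.pi / (2 * (20 : ℕ))) ^ 2 := by
      push_cast; nlinarith
    rw [div_le_iff₀ h4]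
    push_cast
    nlinarith
  have hB : Real.exp (KN d) ≤ 23.8 := le_trans (Real.exp_le_exp.2 hK) exp_nineteen_sixth_lt.le
  have := levelOne_le_of_exp_le f (by omega) hdeg hB (κ := 3 / 50)
    (by nlinarith [pi_sq_lt]) (by norm_num)
  linarith

end

end Vale.Agent.P047
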